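import Vale.Agent.P032.T.ChiFinal

/-!
P032 (new): the transfer principle over a countable subfield `K` of `ℂ` containing `i`.
This file: correlation data of a colouring which is proper on `K` only.
-/

open Set Filter Topology

namespace Vale.Agent.N032

open Vale.Agent.P032 Vale.Agent.P032.T Vale.Agent.P032.T.Ar

/-- countable fields of complex numbers containing `i` -/
class Good (K : IntermediateField ℚ ℂ) : Prop where
  countable : Countable K
  I_mem : Complex.I ∈ K

variable {K : IntermediateField ℚ ℂ}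

instance [h : Good K] : Countable K := h.countable

theorem rat_mem (q : ℚ) : ((q : ℚ) : ℂ) ∈ K := by
  simp

theorem QI_mem [h : Good K] {x : ℂ} (hx : TT.QI x) : x ∈ K := by
  obtain ⟨a, b, rfl⟩ := hx
  exact add_mem (rat_mem a) (mul_mem (rat_mem b) h.I_mem)

theorem coe_rat (q : ℚ) : (((q : ℚ) : K) : ℂ) = (q : ℂ) := by push_cast; rfl

/-- unit vectors of `K` -/
abbrev UK (K : IntermediateField ℚ ℂ) := {u : K // ‖(u : ℂ)‖ = 1}

/-- averaged correlation data of a colouring -/
structure CorrData (K : IntermediateField ℚ ℂ) (k : ℕ) (c : ℂ → Fin k) where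
  E : (K × UK K → ℝ) → ℝ
  f : Fin k → K → ℝ
  add : ∀ g h, Bdd g → Bdd h → E (fun p => g p + h p) = E g + E h
  smul : ∀ (r : ℝ) g, Bdd g → E (fun p => r * g p) = r * E g
  nonneg : ∀ g, Bdd g → (∀ p, 0 ≤ g p) → 0 ≤ E g
  one : E (fun _ => 1) = 1
  posDef : ∀ i, PosDef (f i)
  even : ∀ i x, f i (-x) = f i x
  radial : ∀ i (u x : K), ‖(u : ℂ)‖ = 1 → f i (u * x) = f i x
  unit : ∀ i (x : K), ‖(x : ℂ)‖ = 1 → f i x = 0
  corr : ∀ i (x y : K), E (fun p => ({q : K × UK K | c (q.1 + q.2.1 * x) = i ∧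
    c (q.1 + q.2.1 * y) = i}.indicator (fun _ => (1:ℝ)) p)) = f i (x - y)

/-- the decay property -/
def Decay (f : K → ℝ) : Prop :=
  ∀ ε : ℝ, 0 < ε → ∃ δ : ℝ, 0 < δ ∧ ∀ x : K, (x : ℂ) ∈ G0 → |‖(x : ℂ)‖ - 1| < δ → |f x| < ε

/-- the group of units of absolute value one -/
noncomputable def USub (K : IntermediateField ℚ ℂ) : Subgroup Kˣ where
  carrier := {u | ‖((u : K) : ℂ)‖ = 1}
  one_mem' := by simp
  mul_mem' := by
    intro a b ha hb
    simp only [Set.mem_ofPred_eq] at *
    push_cast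
    rw [norm_mul, ha, hb, mul_one]
  inv_mem' := by
    intro a ha
    simp only [Set.mem_ofPred_eq] at *
    push_cast
    rw [norm_inv, ha, inv_one]

abbrev UA (K : IntermediateField ℚ ℂ) := Additive (USub K)

noncomputable def toUK (h : UA K) : UK K := ⟨((h.toMul : Kˣ) : K), h.toMul.2⟩

noncomputable def ofUK (u : UK K) : UA K :=
  Additive.ofMul ⟨Units.mk0 u.1 (by
    intro h
    have := u.2
    rw [h] at this
    simp at this), u.2⟩

theorem toUK_add (h g : UA K) : ((toUK (h + g)).1 : K) = (toUK h).1 * (toUK g).1 := rfl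

theorem toUK_ofUK (u : UK K) : toUK (ofUK u) = u := rfl

theorem countable_UA [Good K] : Countable (UA K) := by
  have h : Function.Injective (fun h : UA K => (toUK h).1) := by
    intro a b hab
    apply Additive.toMul.injective
    apply Subtype.ext
    apply Units.ext
    exact hab
  exact h.countable

/-- the indicator used in the correlations -/
noncomputable def cind {k : ℕ} (c : ℂ → Fin k) (i : Fin k) (x y : K) (p : K × UK K) : ℝ :=
  {q : K × UK K | c (q.1 + q.2.1 * x) = i ∧ c (q.1 + q.2.1 * y) = i}.indicator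
    (fun _ => (1:ℝ)) p

/-- indicator of one point -/
noncomputable def cind1 {k : ℕ} (c : ℂ → Fin k) (i : Fin k) (x : K) (p : K × UK K) : ℝ :=
  {q : K × UK K | c (q.1 + q.2.1 * x) = i}.indicator (fun _ => (1:ℝ)) p

theorem cind_eq {k : ℕ} (c : ℂ → Fin k) (i : Fin k) (x y : K) (p : K × UK K) :
    cind c i x y p = cind1 c i x p * cind1 c i y p := by
  classical
  simp only [cind, cind1, Set.indicator_apply, Set.mem_ofPred_eq]
  by_cases h1 : c (p.1 + p.2.1 * x) = i <;> by_cases h2 : c (p.1 + p.2.1 * y) = i <;>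
    simp [h1, h2]

theorem cind1_abs_le {k : ℕ} (c : ℂ → Fin k) (i : Fin k) (x : K) (p : K × UK K) :
    |cind1 c i x p| ≤ 1 := by
  classical
  simp only [cind1, Set.indicator_apply]
  split_ifs <;> simp

theorem cind_abs_le {k : ℕ} (c : ℂ → Fin k) (i : Fin k) (x y : K) (p : K × UK K) :
    |cind c i x y p| ≤ 1 := by
  classical
  simp only [cind, Set.indicator_apply]
  split_ifs <;> simp

theorem cind_congr {k : ℕ} (c : ℂ → Fin k) (i : Fin k) (x y x' y' : K) (p p' : K × UK K)
    (h1 : (p.1 : ℂ) + (p.2.1 : ℂ) * (x : ℂ) = (p'.1 : ℂ) + (p'.2.1 : ℂ) * (x' : ℂ))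
    (h2 : (p.1 : ℂ) + (p.2.1 : ℂ) * (y : ℂ) = (p'.1 : ℂ) + (p'.2.1 : ℂ) * (y' : ℂ)) :
    cind c i x y p = cind c i x' y' p' := by
  classical
  simp only [cind, Set.indicator_apply, Set.mem_ofPred_eq, h1, h2]

theorem corr [Good K] (k : ℕ) (c : ℂ → Fin k)
    (hc : ∀ x y : K, dist (x : ℂ) (y : ℂ) = 1 → c x ≠ c y) : Nonempty (CorrData K k c) := by
  classical
  have hU := countable_UA (K := K)
  obtain ⟨M1, add1, smul1, pos1, one1, inv1⟩ := mean K
  obtain ⟨M2, add2, smul2, pos2, one2, inv2⟩ := mean (UA K)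
  let E : (K × UK K → ℝ) → ℝ := fun F => M2 (fun h => M1 (fun b => F (b, toUK h)))
  have hbd1 : ∀ F : K × UK K → ℝ, Bdd F → ∀ u, Bdd (fun b => F (b, u)) := by
    rintro F ⟨C, hC⟩ u
    exact ⟨C, fun b => hC _⟩
  have hbd2 : ∀ F : K × UK K → ℝ, Bdd F → Bdd (fun h : UA K => M1 (fun b => F (b, toUK h))) := by
    rintro F ⟨C, hC⟩
    exact ⟨C, fun h => mean_abs_le M1 add1 smul1 pos1 one1 _ C (fun b => hC _)⟩
  have Eadd : ∀ g h, Bdd g → Bdd h → E (fun p => g p + h p) = E g + E h := by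
    intro g h hg hh
    have : (fun u : UA K => M1 (fun b => g (b, toUK u) + h (b, toUK u))) =
        fun u : UA K => M1 (fun b => g (b, toUK u)) + M1 (fun b => h (b, toUK u)) := by
      funext u
      exact add1 _ _ (hbd1 g hg _) (hbd1 h hh _)
    show M2 (fun u : UA K => M1 (fun b => g (b, toUK u) + h (b, toUK u))) = _
    rw [this]
    exact add2 _ _ (hbd2 g hg) (hbd2 h hh)
  have Esmul : ∀ (r : ℝ) g, Bdd g → E (fun p => r * g p) = r * E g := by
    intro r g hg
    have : (fun u : UA K => M1 (fun b => r * g (b, toUK u))) =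
        fun u : UA K => r * M1 (fun b => g (b, toUK u)) := by
      funext u
      exact smul1 _ _ (hbd1 g hg _)
    show M2 (fun u : UA K => M1 (fun b => r * g (b, toUK u))) = _
    rw [this]
    exact smul2 _ _ (hbd2 g hg)
  have Enonneg : ∀ g, Bdd g → (∀ p, 0 ≤ g p) → 0 ≤ E g := by
    intro g hg hpos
    exact pos2 _ (hbd2 g hg) (fun u => pos1 _ (hbd1 g hg _) (fun b => hpos _))
  have Eone : E (fun _ => 1) = 1 := by
    show M2 (fun _ => M1 (fun _ => 1)) = 1
    simp only [one1, one2]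
  have Ezero : E (fun _ => 0) = 0 := by
    have := Esmul 0 (fun _ => 0) ⟨0, fun _ => by simp⟩
    simp only [mul_zero, zero_mul] at this
    exact this
  have Esum : ∀ {ι : Type} (s : Finset ι) (F : ι → K × UK K → ℝ), (∀ a, Bdd (F a)) →
      Bdd (fun p => ∑ a ∈ s, F a p) ∧ E (fun p => ∑ a ∈ s, F a p) = ∑ a ∈ s, E (F a) := by
    intro ι s F hF
    induction s using Finset.induction_on with
    | empty => simp only [Finset.sum_empty]; exact ⟨⟨0, fun _ => by simp⟩, Ezero⟩
    | insert a s ha ih =>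
      have h1 : (fun p => ∑ a ∈ insert a s, F a p) = fun p => F a p + ∑ a ∈ s, F a p := by
        funext p
        rw [Finset.sum_insert ha]
      rw [h1, Finset.sum_insert ha]
      refine ⟨?_, ?_⟩
      · obtain ⟨C, hC⟩ := hF a
        obtain ⟨D, hD⟩ := ih.1
        exact ⟨C + D, fun p => (abs_add_le _ _).trans (add_le_add (hC p) (hD p))⟩
      · rw [Eadd _ _ (hF a) ih.1, ih.2]
  have hcb : ∀ i (x y : K), Bdd (cind c i x y) := fun i x y => ⟨1, cind_abs_le c i x y⟩
  -- translation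
  have hcorr : ∀ i (x y : K), E (cind c i x y) = E (cind c i (x - y) 0) := by
    intro i x y
    show M2 (fun h => M1 (fun b => cind c i x y (b, toUK h))) =
      M2 (fun h => M1 (fun b => cind c i (x - y) 0 (b, toUK h)))
    congr 1
    funext h
    rw [← inv1 (fun b => cind c i (x - y) 0 (b, toUK h)) ((toUK h).1 * y)
      (hbd1 _ (hcb i (x - y) 0) _)]
    congr 1
    funext b
    have e1 : ((b + (toUK h).1 * y : K) : ℂ) + ((toUK h).1 : ℂ) * ((x - y : K) : ℂ) =
        (b : ℂ) + ((toUK h).1 : ℂ) * (x : ℂ) := by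
      push_cast; ring
    have e2 : ((b + (toUK h).1 * y : K) : ℂ) + ((toUK h).1 : ℂ) * ((0 : K) : ℂ) =
        (b : ℂ) + ((toUK h).1 : ℂ) * (y : ℂ) := by
      push_cast; ring
    exact cind_congr c i _ _ _ _ _ _ e1.symm e2.symm
  have hsymm : ∀ i (x y : K), cind c i x y = cind c i y x := by
    intro i x y
    funext p
    rw [cind_eq, cind_eq, mul_comm]
  let f : Fin k → K → ℝ := fun i z => E (cind c i z 0)
  refine ⟨⟨E, f, Eadd, Esmul, Enonneg, Eone, ?_, ?_, ?_, ?_, ?_⟩⟩
  · -- posDef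
    intro i s r
    have hb1 : ∀ x y : K, Bdd (fun p => (r x * r y) * cind c i x y p) := by
      intro x y
      exact ⟨|r x * r y| * 1, fun p => by
        rw [abs_mul]; exact mul_le_mul_of_nonneg_left (cind_abs_le c i x y p) (abs_nonneg _)⟩
    have hin : ∀ x : K, Bdd (fun p => ∑ y ∈ s, (r x * r y) * cind c i x y p) ∧
        E (fun p => ∑ y ∈ s, (r x * r y) * cind c i x y p) =
          ∑ y ∈ s, E (fun p => (r x * r y) * cind c i x y p) :=
      fun x => Esum s (fun y p => (r x * r y) * cind c i x y p) (hb1 x)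
    have hout := Esum s (fun x p => ∑ y ∈ s, (r x * r y) * cind c i x y p) (fun x => (hin x).1)
    have hval : ∑ x ∈ s, ∑ y ∈ s, r x * r y * f i (x - y) =
        E (fun p => ∑ x ∈ s, ∑ y ∈ s, (r x * r y) * cind c i x y p) := by
      rw [hout.2]
      refine Finset.sum_congr rfl fun x _ => ?_
      rw [(hin x).2]
      refine Finset.sum_congr rfl fun y _ => ?_
      rw [Esmul _ _ (hcb i x y), hcorr i x y]
    rw [hval]
    refine Enonneg _ hout.1 fun p => ?_
    have : ∑ x ∈ s, ∑ y ∈ s, (r x * r y) * cind c i x y p =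
        (∑ x ∈ s, r x * cind1 c i x p) * (∑ y ∈ s, r y * cind1 c i y p) := by
      rw [Finset.sum_mul_sum]
      refine Finset.sum_congr rfl fun x _ => Finset.sum_congr rfl fun y _ => ?_
      rw [cind_eq]; ring
    rw [this]
    exact mul_self_nonneg _
  · -- even
    intro i x
    show E (cind c i (-x) 0) = E (cind c i x 0)
    have h1 := hcorr i 0 x
    rw [zero_sub] at h1
    rw [← h1, hsymm]
  · -- radial
    intro i w x hw
    show M2 (fun h => M1 (fun b => cind c i (w * x) 0 (b, toUK h))) =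
      M2 (fun h => M1 (fun b => cind c i x 0 (b, toUK h)))
    rw [← inv2 (fun h => M1 (fun b => cind c i x 0 (b, toUK h))) (ofUK ⟨w, hw⟩)
      (hbd2 _ (hcb i x 0))]
    congr 1
    funext h
    congr 1
    funext b
    have e1 : ((toUK (h + ofUK ⟨w, hw⟩)).1 : ℂ) * (x : ℂ) =
        ((toUK h).1 : ℂ) * ((w * x : K) : ℂ) := by
      rw [toUK_add, toUK_ofUK]
      push_cast
      ring
    have e2 : ((toUK (h + ofUK ⟨w, hw⟩)).1 : ℂ) * ((0 : K) : ℂ) =
        ((toUK h).1 : ℂ) * ((0 : K) : ℂ) := by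
      simp
    refine cind_congr c i _ _ _ _ _ _ ?_ ?_
    · rw [← e1]
    · rw [← e2]
  · -- unit
    intro i x hx
    show E (cind c i x 0) = 0
    have : cind c i x 0 = fun _ => 0 := by
      funext p
      simp only [cind, Set.indicator_apply, Set.mem_ofPred_eq]
      rw [if_neg]
      rintro ⟨h1, h2⟩
      have e1 : ((p.1 + p.2.1 * x : K) : ℂ) = (p.1 : ℂ) + (p.2.1 : ℂ) * (x : ℂ) := by
        push_cast; ring
      have e2 : ((p.1 + p.2.1 * 0 : K) : ℂ) = (p.1 : ℂ) + (p.2.1 : ℂ) * ((0 : K) : ℂ) := by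
        push_cast; ring
      refine hc (p.1 + p.2.1 * x) (p.1 + p.2.1 * 0) ?_ (by rw [e1, e2]; exact h1.trans h2.symm)
      rw [dist_eq_norm, e1, e2]
      have : ((p.1 : ℂ) + (p.2.1 : ℂ) * (x : ℂ)) - ((p.1 : ℂ) + (p.2.1 : ℂ) * ((0 : K) : ℂ)) =
          (p.2.1 : ℂ) * (x : ℂ) := by
        push_cast; ring
      rw [this, norm_mul, hx, mul_one]
      exact p.2.2
    rw [this, Ezero]
  · intro i x y
    exact hcorr i x y

/-- `RRset` as a subring of `K` -/
noncomputable def RRsub (K : IntermediateField ℚ ℂ) : Subring K where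
  carrier := {y | (y : ℂ) ∈ RRset}
  mul_mem' := by
    rintro x y ⟨g, d, hd, h⟩ ⟨g', d', hd', h'⟩
    refine ⟨g * g', d * d', ?_, ?_⟩
    · intro h2
      rcases gp_prime.dvd_or_dvd h2 with h2 | h2
      · exact hd h2
      · exact hd' h2
    · simp only [map_mul, MulMemClass.coe_mul]
      rw [← h, ← h']; ring
  one_mem' := ⟨1, 1, fun h => by rw [gp_dvd_iff] at h; simp at h, by simp⟩
  add_mem' := by
    rintro x y ⟨g, d, hd, h⟩ ⟨g', d', hd', h'⟩
    refine ⟨g * d' + g' * d, d * d', ?_, ?_⟩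
    · intro h2
      rcases gp_prime.dvd_or_dvd h2 with h2 | h2
      · exact hd h2
      · exact hd' h2
    · simp only [map_mul, map_add, AddMemClass.coe_add]
      rw [← h, ← h']; ring
  zero_mem' := ⟨0, 1, fun h => by rw [gp_dvd_iff] at h; simp at h, by simp⟩
  neg_mem' := by
    rintro x ⟨g, d, hd, h⟩
    refine ⟨-g, d, hd, ?_⟩
    simp only [map_neg, NegMemClass.coe_neg]
    rw [← h]; ring

theorem ring [Good K] : ∃ (R : Subring K), Countable R ∧
    ∀ z : ℂ, z ∈ RRset ↔ ∃ y : K, y ∈ R ∧ (y : ℂ) = z := by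
  refine ⟨RRsub K, ?_, ?_⟩
  · exact Function.Injective.countable (f := fun y : RRsub K => (y : K)) Subtype.val_injective
  · intro z
    constructor
    · intro hz
      exact ⟨⟨z, QI_mem (TT.QI.of_RRset hz)⟩, hz, rfl⟩
    · rintro ⟨y, hy, rfl⟩
      exact hy

end Vale.Agent.N032
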