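import Vale.Agent.N032.Kill

/-!
P032 (new): the decay property over a field `K` with one suitable rotation for each prime.
-/

open MeasureTheory Set Filter Topology
open scoped ENNReal NNReal

namespace Vale.Agent.N032

open Vale.Agent.P032
open Vale.Agent.P032.T hiding CorrData Decay UK ring
open Vale.Agent.P032.T.Ga
open Vale.Agent.P032.T.TT (QI G0_mul G0_nat den_ne re_bound measurable_ev norm_ev_le G0_sub_RRset)

/-- for each prime `p` a rotation with rational trace `τ`, `p ∣ den τ` -/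
def Hyp (K : IntermediateField ℚ ℂ) : Prop :=
  ∀ p : ℕ, p.Prime → ∃ τ : ℚ, p ∣ τ.den ∧ ∃ s : ℝ, (s : ℂ) ∈ K ∧ (τ : ℝ) ^ 2 + s ^ 2 = 4

theorem G0_sub {x y : ℂ} (hx : x ∈ G0) (hy : y ∈ G0) : x - y ∈ G0 := by
  obtain ⟨g, n, hg⟩ := hx
  obtain ⟨h, m, hh⟩ := hy
  refine ⟨g * gpb ^ m - h * gpb ^ n, n + m, ?_⟩
  rw [map_sub, map_mul, map_mul, map_pow, map_pow, coe_gpb, ← hg, ← hh]
  ring

theorem norm_aC : ‖aC‖ = 1 := by
  unfold aC
  rw [norm_div, norm_two_add_I, norm_two_sub_I, div_self]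
  positivity

theorem aC_pow_G0 (n : ℕ) : aC ^ n ∈ G0 := by
  refine ⟨gp ^ n, n, ?_⟩
  unfold aC
  rw [div_pow, div_mul_cancel₀ _ (pow_ne_zero n two_sub_I_ne), map_pow, coe_gp]

theorem aC_pow_ne {n : ℕ} (hn : 0 < n) : aC ^ n ≠ 1 := by
  intro h
  unfold aC at h
  rw [div_pow, div_eq_one_iff_eq (pow_ne_zero n two_sub_I_ne), ← coe_gp, ← coe_gpb, ← map_pow,
    ← map_pow, GaussianInt.toComplex_inj] at h
  exact not_gp_dvd_gpb_pow n (h ▸ dvd_pow_self gp hn.ne')

/-- the unit vectors of `G0` are dense in the circle -/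
theorem exists_G0_unit {z : ℂ} (hz : ‖z‖ = 1) {ε : ℝ} (hε : 0 < ε) :
    ∃ v : ℂ, v ∈ G0 ∧ ‖v‖ = 1 ∧ ‖v - z‖ < ε := by
  have : Fact ((0:ℝ) < 1) := ⟨one_pos⟩
  let e := AddCircle.homeomorphCircle (T := 1) one_ne_zero
  let A : Circle := ⟨aC, by simp [Submonoid.unitSphere, norm_aC]⟩
  let Z : Circle := ⟨z, by simp [Submonoid.unitSphere, hz]⟩
  have he : ∀ n : ℕ, e (n • e.symm A) = A ^ n := by
    intro n
    rw [AddCircle.homeomorphCircle_apply, AddCircle.toCircle_nsmul,
      ← AddCircle.homeomorphCircle_apply one_ne_zero, Homeomorph.apply_symm_apply]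
  have h0 : addOrderOf (e.symm A) = 0 := by
    rw [addOrderOf_eq_zero_iff']
    intro n hn h
    have h1 := he n
    rw [h, AddCircle.homeomorphCircle_apply, AddCircle.toCircle_zero] at h1
    have h2 := congrArg (fun w : Circle => (w : ℂ)) h1
    simp only [Circle.coe_one, Circle.coe_pow] at h2
    exact aC_pow_ne hn h2.symm
  have hd : DenseRange (· • e.symm A : ℕ → AddCircle (1:ℝ)) :=
    denseRange_zsmul_iff_nsmul.1 (AddCircle.denseRange_zsmul_iff.2 h0)
  have hd2 : DenseRange (fun n : ℕ => A ^ n) := by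
    have := e.surjective.denseRange.comp hd e.continuous
    convert this using 1
    funext n
    exact (he n).symm
  obtain ⟨n, hn⟩ := hd2.exists_dist_lt Z hε
  refine ⟨aC ^ n, aC_pow_G0 n, by rw [norm_pow, norm_aC, one_pow], ?_⟩
  rw [dist_comm, circle_dist, Circle.coe_pow] at hn
  exact hn

variable {K : IntermediateField ℚ ℂ} [Good K] {μ : Measure (K → Circle)}

theorem ae_CC [IsFiniteMeasure μ] (hK : Hyp K) (hI : RInv μ) :
    ∀ᵐ χ ∂μ, χ ∈ EE (1 : K) → CC 1 χ := by
  have h : ∀ p : ℕ, ∀ᵐ χ ∂μ, p.Prime → χ ∈ EE (1 : K) → χ ∈ BB p (1 : K) 0 := by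
    intro p
    by_cases hp : p.Prime
    swap
    · exact Eventually.of_forall fun χ h => absurd h hp
    obtain ⟨τ, hτ, s, hsK, hs⟩ := hK p hp
    set S : K := ⟨s, hsK⟩ with hS
    set II : K := ⟨Complex.I, Good.I_mem⟩ with hII
    have hSC : (S : ℂ) = s := rfl
    have hIC : (II : ℂ) = Complex.I := rfl
    have hd : s ^ 2 = ((4 - τ ^ 2 : ℚ) : ℝ) := by push_cast; linarith
    have hsC : ((τ : ℚ) : ℂ) ^ 2 + (s : ℂ) ^ 2 = 4 := by exact_mod_cast hs
    set u : K := ((τ / 2 : ℚ) : K) + II * ((1 / 2 : ℚ) : K) * S with hu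
    have huC : (u : ℂ) = (τ : ℂ) / 2 + Complex.I * (s / 2) := by
      rw [hu, AddMemClass.coe_add, MulMemClass.coe_mul, MulMemClass.coe_mul, coe_rat, coe_rat, hSC,
        hIC]
      push_cast; ring
    have hu1 : ‖(u : ℂ)‖ = 1 := by
      have h1 : ‖(u : ℂ)‖ ^ 2 = 1 := by
        rw [← Complex.normSq_eq_norm_sq, huC, Complex.normSq_apply]
        have e : ((τ : ℚ) : ℂ) = ((τ : ℝ) : ℂ) := by push_cast; rfl
        rw [e]
        simp
        linarith
      have h2 := norm_nonneg (u : ℂ)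
      nlinarith
    have hut : u + u⁻¹ = (τ : K) := by
      have h1 : u⁻¹ = (τ : K) - u := by
        apply inv_eq_of_mul_eq_one_right
        apply Subtype.ext
        push_cast
        rw [huC]
        linear_combination (1 / 4) * hsC - ((s : ℂ) ^ 2 / 4) * Complex.I_sq
      rw [h1]; ring
    have hE : EE u =ᵐ[μ] EE 1 := EE_unit hI hSC hd (a := ((τ / 2 : ℚ) : K))
      (b := II * ((1 / 2 : ℚ) : K)) (by rw [coe_rat]; exact TT.QI.rat _)
      (by rw [MulMemClass.coe_mul, coe_rat]; exact TT.QI.I.mul (TT.QI.rat _)) hu hu1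
    filter_upwards [kill_prime hI hp hτ hu1 hut hE] with χ hχ _ using hχ
  filter_upwards [ae_all_iff.2 h] with χ hχ hE
  exact CC_one hE fun p hp => hχ p hp hE

theorem gg_small [IsFiniteMeasure μ] (hK : Hyp K) (hI : RInv μ) {ε : ℝ} (hε : 0 < ε) :
    ∃ r : ℝ, 0 < r ∧ ∀ y : K, (y : ℂ) ∈ G0 → ‖(y : ℂ)‖ < r → gg μ y ≤ ε := by
  by_contra hcon
  push Not at hcon
  choose y hyG hyn hyg using fun n : ℕ => hcon (1 / ((n : ℝ) + 1)) (by positivity)
  have hlim : Tendsto (fun n => gg μ (y n)) atTop (𝓝 0) := by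
    have : (0:ℝ) = ∫ χ in EE (1 : K), (0:ℝ) ∂μ := by simp
    rw [this]
    unfold gg
    refine tendsto_integral_of_dominated_convergence (fun _ => 2)
      (fun n => (measurable_re _).aestronglyMeasurable) (integrable_const _) (fun n => ?_) ?_
    · refine Eventually.of_forall fun χ => ?_
      rw [Real.norm_eq_abs, abs_le]
      constructor <;> linarith [(re_bound (χ (y n))).1, (re_bound (χ (y n))).2]
    · rw [ae_restrict_iff' (measurableSet_EE 1)]
      filter_upwards [ae_CC hK hI] with χ h hχ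
      have h0 : Tendsto (fun n => ((χ (y n) : Circle) : ℂ)) atTop (𝓝 1) := by
        rw [Metric.tendsto_atTop]
        intro η hη
        obtain ⟨δ, hδ, hy⟩ := h hχ η hη
        obtain ⟨N, hN⟩ := exists_nat_one_div_lt hδ
        refine ⟨N, fun n hn => ?_⟩
        have h2 := hy (y n) (hyG n) ((hyn n).trans_le ((Nat.one_div_le_one_div hn).trans hN.le))
        rw [one_mul, circle_dist, Circle.coe_one] at h2
        rwa [dist_eq_norm]
      have h1 := (Complex.continuous_re.tendsto 1).comp h0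
      have h2 := h1.const_sub 1
      simpa using h2
  obtain ⟨n, hn⟩ := (hlim.eventually (gt_mem_nhds hε)).exists
  exact absurd (hyg n) (not_lt.2 hn.le)

theorem decay (hK : Hyp K) (f : K → ℝ) (hf : PosDef f) (he : ∀ x, f (-x) = f x)
    (hrad : ∀ u x : K, ‖(u : ℂ)‖ = 1 → f (u * x) = f x)
    (hunit : ∀ x : K, ‖(x : ℂ)‖ = 1 → f x = 0) : Decay f := by
  obtain ⟨μ, hμ, hχ, hint⟩ := boch K (K.val : K →ₐ[ℚ] ℂ).toRingHom.toAddMonoidHom
    (fun a b h => Subtype.ext h) f hf he
  have hI : RInv μ := by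
    intro u hu
    refine inv K μ hχ (AddMonoidHom.mulLeft u) fun x => ?_
    rw [hint, hint]
    exact_mod_cast hrad u x hu
  -- the formula for `f`
  have hform : ∀ x : K, QI (x : ℂ) → x ≠ 0 →
      (f x : ℂ) = ∫ χ in EE 1, ((χ x : Circle) : ℂ) ∂μ := by
    intro x hx hx0
    have hi : Integrable (fun χ : K → Circle => ((χ x : Circle) : ℂ)) μ :=
      Integrable.of_bound (measurable_ev x).aestronglyMeasurable 1
        (Eventually.of_forall fun χ => norm_ev_le x χ)
    have h1 := integral_compl hχ hI x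
    have h2 : EE x = EE 1 := by
      have := EE_smul_eq (z := 1) hx hx0
      rwa [mul_one] at this
    rw [h2] at h1
    rw [← hint, ← integral_add_compl (measurableSet_EE 1) hi, h1, add_zero]
  -- the modulus of continuity
  have hmod : ∀ η : ℝ, 0 < η → ∀ x v : K, QI (x : ℂ) → QI (v : ℂ) → x ≠ 0 → v ≠ 0 →
      |f x - f v| ≤ η * μ.real (EE 1) + gg μ (x - v) / η := by
    intro η hη x v hx hv hx0 hv0
    have h1 : (((f x - f v : ℝ)) : ℂ) =
        ∫ χ in EE 1, (((χ x : Circle) : ℂ) - ((χ v : Circle) : ℂ)) ∂μ := by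
      rw [integral_sub]
      · rw [← hform x hx hx0, ← hform v hv hv0]; push_cast; ring
      · exact (Integrable.of_bound (measurable_ev x).aestronglyMeasurable 1
          (Eventually.of_forall fun χ => norm_ev_le x χ))
      · exact (Integrable.of_bound (measurable_ev v).aestronglyMeasurable 1
          (Eventually.of_forall fun χ => norm_ev_le v χ))
    have h2 : |f x - f v| = ‖(((f x - f v : ℝ)) : ℂ)‖ := by
      rw [Complex.norm_real, Real.norm_eq_abs]
    rw [h2, h1]
    refine (norm_integral_le_integral_norm _).trans ?_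
    have h3 : ∫ χ in EE 1, ‖((χ x : Circle) : ℂ) - ((χ v : Circle) : ℂ)‖ ∂μ ≤
        ∫ χ in EE 1, (η + (1 - ((χ (x - v) : Circle) : ℂ).re) / η) ∂μ := by
      refine setIntegral_mono_on ?_ ?_ (measurableSet_EE 1) fun χ hχ => ?_
      · exact (Integrable.of_bound ((measurable_ev x).sub (measurable_ev v)).norm.aestronglyMeasurable
          2 (Eventually.of_forall fun χ => by
            rw [norm_norm]
            exact (norm_sub_le _ _).trans (by
              linarith [norm_ev_le x χ, norm_ev_le v χ]))).integrableOn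
      · exact ((integrable_const η).add ((integrable_re (x - v)).div_const η)).integrableOn
      · have hc := hχ.1
        have e1 : ‖((χ x : Circle) : ℂ) - ((χ v : Circle) : ℂ)‖ =
            ‖((χ (x - v) : Circle) : ℂ) - 1‖ := by
          rw [Ga.char_sub hc]
          have h4 : ((χ x : Circle) : ℂ) - ((χ v : Circle) : ℂ) =
              ((χ v : Circle) : ℂ) * (((χ x * (χ v)⁻¹ : Circle) : ℂ) - 1) := by
            have h5 : ((χ v : Circle) : ℂ) * (((χ v)⁻¹ : Circle) : ℂ) = 1 := by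
              rw [← Circle.coe_mul, mul_inv_cancel, Circle.coe_one]
            rw [Circle.coe_mul]
            linear_combination (- ((χ x : Circle) : ℂ)) * h5
          rw [h4, norm_mul, Circle.norm_coe, one_mul]
        rw [e1]
        generalize χ (x - v) = w
        have h6 : ‖(w : ℂ) - 1‖ ^ 2 = 2 * (1 - (w : ℂ).re) := by
          rw [← Complex.normSq_eq_norm_sq, Complex.normSq_apply]
          have := Circle.normSq_coe w
          rw [Complex.normSq_apply] at this
          simp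
          linarith
        have h7 : (1 - (w : ℂ).re) = ‖(w : ℂ) - 1‖ ^ 2 / 2 := by rw [h6]; ring
        rw [h7]
        have h8 : ‖(w : ℂ) - 1‖ * η ≤ η * η + ‖(w : ℂ) - 1‖ ^ 2 / 2 := by
          nlinarith [sq_nonneg (‖(w : ℂ) - 1‖ - η), sq_nonneg η]
        have h9 : η + ‖(w : ℂ) - 1‖ ^ 2 / 2 / η = (η * η + ‖(w : ℂ) - 1‖ ^ 2 / 2) / η := by
          field_simp
        rw [h9, le_div_iff₀ hη]
        exact h8
    refine h3.trans (le_of_eq ?_)
    rw [integral_add (integrable_const η) ((integrable_re (x - v)).integrableOn.div_const η),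
      integral_div]
    simp [gg, Measure.real, mul_comm]
  intro ε hε
  set M : ℝ := μ.real (EE 1) with hM
  have hM0 : 0 ≤ M := measureReal_nonneg
  set η : ℝ := ε / (4 * (M + 1)) with hη
  have hη0 : 0 < η := by positivity
  obtain ⟨r, hr, hgr⟩ := gg_small (μ := μ) hK hI (show 0 < ε / 4 * η by positivity)
  refine ⟨min (r / 2) (1 / 2), by positivity, fun x hxG hx => ?_⟩
  have hx1 := hx.trans_le (min_le_left _ _)
  have hx2 := hx.trans_le (min_le_right _ _)
  have hxn : 0 < ‖(x : ℂ)‖ := by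
    rw [abs_lt] at hx2; linarith [hx2.1]
  have hxC : (x : ℂ) ≠ 0 := norm_pos_iff.1 hxn
  have hx0 : x ≠ 0 := by rintro rfl; simp at hxC
  have hunitx : ‖(x : ℂ) / ‖(x : ℂ)‖‖ = 1 := by
    rw [norm_div, Complex.norm_real, norm_norm, div_self hxn.ne']
  obtain ⟨v, hvG, hv1, hvd⟩ := exists_G0_unit hunitx (half_pos hr)
  have hvQ : QI v := TT.QI.G0 hvG
  set vK : K := ⟨v, QI_mem hvQ⟩ with hvK
  have hvKC : (vK : ℂ) = v := rfl
  have hvK0 : vK ≠ 0 := ne_zero_of_norm (u := vK) (by rw [hvKC]; exact hv1)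
  have hxQ : QI (x : ℂ) := TT.QI.G0 hxG
  have hdist : ‖((x - vK : K) : ℂ)‖ < r := by
    have e1 : ((x - vK : K) : ℂ) = ((x : ℂ) - (x : ℂ) / ‖(x : ℂ)‖) - (v - (x : ℂ) / ‖(x : ℂ)‖) := by
      push_cast
      rw [hvKC]; ring
    have e2 : ‖(x : ℂ) - (x : ℂ) / ‖(x : ℂ)‖‖ = |‖(x : ℂ)‖ - 1| := by
      have : (x : ℂ) - (x : ℂ) / ‖(x : ℂ)‖ =
          ((‖(x : ℂ)‖ - 1 : ℝ) : ℂ) * ((x : ℂ) / ‖(x : ℂ)‖) := by
        have hne : (‖(x : ℂ)‖ : ℂ) ≠ 0 := by exact_mod_cast hxn.ne'
        push_cast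
        field_simp
      rw [this, norm_mul, hunitx, mul_one, Complex.norm_real, Real.norm_eq_abs]
    rw [e1]
    refine (norm_sub_le _ _).trans_lt ?_
    rw [e2]
    linarith
  have h1 := hmod η hη0 x vK hxQ (by rw [hvKC]; exact hvQ) hx0 hvK0
  have h2 := hgr (x - vK) (by push_cast; rw [hvKC]; exact G0_sub hxG hvG) hdist
  have h3 : f vK = 0 := hunit vK (by rw [hvKC]; exact hv1)
  rw [h3, sub_zero] at h1
  have h4 : gg μ (x - vK) / η ≤ ε / 4 := by
    rw [div_le_iff₀ hη0]; exact h2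
  have h5 : η * M ≤ ε / 4 := by
    rw [hη, div_mul_eq_mul_div, div_le_div_iff₀ (by positivity) (by norm_num)]
    nlinarith
  linarith

end Vale.Agent.N032
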