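import Vale.Agent.N032.Base

/-! P032 (new): discretisation over the field `K`. -/

open MeasureTheory Set Filter Topology
open scoped ENNReal

namespace Vale.Agent.N032

open Vale.Agent.P032
open Vale.Agent.P032.T hiding CorrData Decay UK cind cind1 cind_abs_le cind_eq disc
open Vale.Agent.P032.T.Di hiding E_sum pt sum_cind key

variable {K : IntermediateField ℚ ℂ}

theorem E_sum {k : ℕ} {c : ℂ → Fin k} (d : CorrData K k c) {ι : Type} (s : Finset ι)
    (F : ι → K × UK K → ℝ) (hF : ∀ a, Bdd (F a)) :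
    Bdd (fun p => ∑ a ∈ s, F a p) ∧ d.E (fun p => ∑ a ∈ s, F a p) = ∑ a ∈ s, d.E (F a) := by
  classical
  induction s using Finset.induction_on with
  | empty =>
    simp only [Finset.sum_empty]
    refine ⟨⟨0, fun _ => by simp⟩, ?_⟩
    have := d.smul 0 (fun _ => 0) ⟨0, fun _ => by simp⟩
    simp only [mul_zero, zero_mul] at this
    exact this
  | insert a s ha ih =>
    have h1 : (fun p => ∑ a ∈ insert a s, F a p) = fun p => F a p + ∑ a ∈ s, F a p := by
      funext p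
      rw [Finset.sum_insert ha]
    rw [h1, Finset.sum_insert ha]
    refine ⟨?_, ?_⟩
    · obtain ⟨C, hC⟩ := hF a
      obtain ⟨D, hD⟩ := ih.1
      exact ⟨C + D, fun p => (abs_add_le _ _).trans (add_le_add (hC p) (hD p))⟩
    · rw [d.add _ _ (hF a) ih.1, ih.2]

theorem lat_G0 (n : ℕ) (m : ℤ × ℤ) : lat n m ∈ G0 := by
  refine ⟨⟨m.1, m.2⟩, n, ?_⟩
  unfold lat
  rw [div_mul_cancel₀ _ (pow_ne_zero n two_sub_I_ne)]

noncomputable def pt (K : IntermediateField ℚ ℂ) [Good K] (n : ℕ) (m : ℤ × ℤ) : K :=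
  ⟨lat n m, QI_mem (TT.QI.G0 (lat_G0 n m))⟩

theorem sum_cind {k : ℕ} (c : ℂ → Fin k) (x y : K) (p : K × UK K) :
    ∑ i, cind c i x y p = if c (p.1 + p.2.1 * x) = c (p.1 + p.2.1 * y) then 1 else 0 := by
  classical
  have h : ∀ i, cind c i x y p =
      if i = c (p.1 + p.2.1 * x) then
        (if c (p.1 + p.2.1 * x) = c (p.1 + p.2.1 * y) then 1 else 0) else 0 := by
    intro i
    simp only [cind, Set.indicator_apply, Set.mem_ofPred_eq]
    by_cases h1 : i = c (p.1 + p.2.1 * x)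
    · subst h1
      simp [eq_comm]
    · rw [if_neg h1, if_neg]
      rintro ⟨h2, _⟩
      exact h1 h2.symm
  rw [Finset.sum_congr rfl (fun i _ => h i), Finset.sum_ite_eq' Finset.univ]
  simp

theorem key [Good K] (k : ℕ) (c : ℂ → Fin k) (d : CorrData K k c) (hdec : ∀ i, Decay (d.f i)) (N : ℕ)
    (ε : ℝ) (hε : 0 < ε) :
    ∃ cN : ℂ → Fin k, Measurable cN ∧ (volume : Measure (ℂ × ℝ)) {p : ℂ × ℝ | ‖p.1‖ ≤ N ∧
      p.2 ∈ Ioc (0:ℝ) (2 * Real.pi) ∧ cN (p.1 + M.e p.2) = cN p.1} ≤ ENNReal.ofReal ε := by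
  classical
  set V : ℝ := (volume (box N)).toReal with hV
  have hV0 : 0 ≤ V := ENNReal.toReal_nonneg
  set ε' : ℝ := ε / ((V + 1) * (k + 1)) with hε'
  have hε'0 : 0 < ε' := by positivity
  choose δ' hδ'0 hδ' using fun i => hdec i ε' hε'0
  obtain ⟨δ, hδ0, hδ⟩ : ∃ δ : ℝ, 0 < δ ∧ ∀ i, δ ≤ δ' i := by
    have h1 : ∀ᶠ δ in 𝓝[>] (0:ℝ), ∀ i, δ ≤ δ' i := by
      rw [Filter.eventually_all]
      intro i
      exact (eventually_le_nhds (hδ'0 i)).filter_mono nhdsWithin_le_nhds
    obtain ⟨δ, h2, h3⟩ := (h1.and self_mem_nhdsWithin).exists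
    exact ⟨δ, h3, h2⟩
  have hs5 : (0:ℝ) < Real.sqrt 5 := Real.sqrt_pos.2 (by norm_num)
  have hs51 : 1 < Real.sqrt 5 := by
    rw [show (1:ℝ) = Real.sqrt 1 by simp]
    exact Real.sqrt_lt_sqrt (by norm_num) (by norm_num)
  obtain ⟨n, hn⟩ := exists_pow_lt_of_lt_one (show 0 < δ / 4 by positivity)
    (show (Real.sqrt 5)⁻¹ < 1 from inv_lt_one_of_one_lt₀ hs51)
  have hn' : 4 / Real.sqrt 5 ^ n < δ := by
    rw [inv_pow] at hn
    rw [div_eq_mul_inv]
    linarith
  -- the finite set of pairs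
  set Z : ℤ := ⌈((N : ℝ) + 1) * Real.sqrt 5 ^ n⌉ + 1 with hK
  set B : Finset (ℤ × ℤ) := Finset.Icc (-Z) Z ×ˢ Finset.Icc (-Z) Z with hB
  set F : Finset ((ℤ × ℤ) × (ℤ × ℤ)) := B ×ˢ B with hF
  have hflB : ∀ x : ℂ, ‖x‖ ≤ (N : ℝ) + 1 → fl n x ∈ B := by
    intro x hx
    have h1 : ‖x * (2 - Complex.I) ^ n‖ ≤ ((N : ℝ) + 1) * Real.sqrt 5 ^ n := by
      rw [norm_mul, norm_pow, norm_two_sub_I]
      exact mul_le_mul_of_nonneg_right hx (by positivity)
    have aux : ∀ r : ℝ, |r| ≤ ((N : ℝ) + 1) * Real.sqrt 5 ^ n → ⌊r⌋ ∈ Finset.Icc (-Z) Z := by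
      intro r hr
      rw [Finset.mem_Icc]
      have h2 : ((N : ℝ) + 1) * Real.sqrt 5 ^ n ≤ (⌈((N : ℝ) + 1) * Real.sqrt 5 ^ n⌉ : ℝ) :=
        Int.le_ceil _
      have h3 := (abs_le.1 hr).1
      have h4 := (abs_le.1 hr).2
      constructor
      · rw [Int.le_floor, hK]
        push_cast
        linarith
      · have h5 : (⌊r⌋ : ℝ) ≤ Z := by
          rw [hK]; push_cast
          linarith [Int.floor_le r]
        exact_mod_cast h5
    rw [hB, Finset.mem_product]
    exact ⟨aux _ ((Complex.abs_re_le_norm _).trans h1), aux _ ((Complex.abs_im_le_norm _).trans h1)⟩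
  -- the averaged defect
  set v : ((ℤ × ℤ) × (ℤ × ℤ)) → ℝ := fun f => (volume (cell n N f)).toReal with hv
  have hv0 : ∀ f, 0 ≤ v f := fun f => ENNReal.toReal_nonneg
  have hclt : ∀ f, volume (cell n N f) ≠ ∞ := fun f =>
    ((measure_mono (fun p hp => hp.1 : cell n N f ⊆ box N)).trans_lt
      (lt_top_iff_ne_top.2 (volume_box N))).ne
  let W1 : ((ℤ × ℤ) × (ℤ × ℤ)) → K × UK K → ℝ := fun f p =>
    ∑ i, cind c i (pt K n f.1) (pt K n f.2) p
  have hW1 : ∀ f, Bdd (W1 f) ∧ d.E (W1 f) = ∑ i, d.f i (pt K n f.1 - pt K n f.2) := by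
    intro f
    have h := E_sum d Finset.univ (fun i => cind c i (pt K n f.1) (pt K n f.2))
      (fun i => ⟨1, cind_abs_le c i _ _⟩)
    refine ⟨h.1, h.2.trans ?_⟩
    refine Finset.sum_congr rfl fun i _ => ?_
    exact d.corr i _ _
  have hW2 := E_sum d F (fun f p => v f * W1 f p) (fun f => by
    obtain ⟨C, hC⟩ := (hW1 f).1
    exact ⟨|v f| * C, fun p => by rw [abs_mul]; exact mul_le_mul_of_nonneg_left (hC p) (abs_nonneg _)⟩)
  set W : K × UK K → ℝ := fun p => ∑ f ∈ F, v f * W1 f p with hW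
  have hEW : d.E W ≤ V * (k * ε') := by
    rw [hW2.2]
    calc ∑ f ∈ F, d.E (fun p => v f * W1 f p) ≤ ∑ f ∈ F, v f * (k * ε') := by
          refine Finset.sum_le_sum fun f _ => ?_
          rw [d.smul _ _ (hW1 f).1, (hW1 f).2]
          by_cases he : (cell n N f).Nonempty
          · refine mul_le_mul_of_nonneg_left ?_ (hv0 f)
            obtain ⟨p, hp, hp1, hp2⟩ := he
            have hnear : |‖((pt K n f.1 - pt K n f.2 : K) : ℂ)‖ - 1| < δ := by
              have h1 := dist_lat n (p.1 + M.e p.2)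
              have h2 := dist_lat n p.1
              rw [hp1] at h1
              rw [hp2] at h2
              have h3 : ((pt K n f.1 - pt K n f.2 : K) : ℂ) = lat n f.1 - lat n f.2 := rfl
              rw [h3, ← norm_e p.2]
              refine (abs_norm_sub_norm_le _ _).trans_lt ?_
              have h4 : lat n f.1 - lat n f.2 - M.e p.2 =
                  (lat n f.1 - (p.1 + M.e p.2)) - (lat n f.2 - p.1) := by ring
              rw [h4]
              refine ((norm_sub_le _ _).trans (add_le_add h1 h2)).trans_lt ?_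
              have h5 : 2 / Real.sqrt 5 ^ n + 2 / Real.sqrt 5 ^ n = 4 / Real.sqrt 5 ^ n := by ring
              rw [h5]
              exact hn'
            have hG : ((pt K n f.1 - pt K n f.2 : K) : ℂ) ∈ G0 := by
              refine ⟨(⟨f.1.1, f.1.2⟩ : GaussianInt) - ⟨f.2.1, f.2.2⟩, n, ?_⟩
              have hne : ((2 - Complex.I : ℂ)) ^ n ≠ 0 := pow_ne_zero n two_sub_I_ne
              have h3 : ((pt K n f.1 - pt K n f.2 : K) : ℂ) = lat n f.1 - lat n f.2 := rfl
              rw [h3]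
              unfold lat
              rw [sub_mul, div_mul_cancel₀ _ hne, div_mul_cancel₀ _ hne, map_sub]
            calc ∑ i, d.f i (pt K n f.1 - pt K n f.2) ≤ ∑ _i : Fin k, ε' := by
                  refine Finset.sum_le_sum fun i _ => ?_
                  exact (le_abs_self _).trans (hδ' i _ hG (hnear.trans_le (hδ i))).le
              _ = k * ε' := by simp
          · have h0 : v f = 0 := by
              rw [hv]
              simp only
              rw [Set.not_nonempty_iff_eq_empty.1 he]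
              simp
            rw [h0]
            simp
      _ = (∑ f ∈ F, v f) * (k * ε') := by rw [Finset.sum_mul]
      _ ≤ V * (k * ε') := mul_le_mul_of_nonneg_right (sum_cell n N F) (by positivity)
  have hlt : V * (k * ε') < ε := by
    rw [hε']
    have h1 : V * (k * (ε / ((V + 1) * (k + 1)))) = ε * (V * k) / ((V + 1) * (k + 1)) := by
      field_simp
    rw [h1, div_lt_iff₀ (by positivity)]
    have hk : (0:ℝ) ≤ k := by positivity
    nlinarith [mul_nonneg hV0 hk]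
  obtain ⟨p, hp⟩ : ∃ p, W p ≤ ε := by
    by_contra hcon
    push Not at hcon
    have hb : Bdd (fun _ : K × UK K => (-ε) * 1) := ⟨ε, fun _ => by
      rw [abs_mul, abs_neg, abs_of_pos hε]; simp⟩
    have h1 : 0 ≤ d.E (fun p => W p + (-ε) * 1) := by
      refine d.nonneg _ ?_ fun p => by linarith [hcon p]
      obtain ⟨C, hC⟩ := hW2.1
      obtain ⟨D, hD⟩ := hb
      exact ⟨C + D, fun p => (abs_add_le _ _).trans (add_le_add (hC p) (hD p))⟩
    rw [d.add _ _ hW2.1 hb, d.smul _ _ ⟨1, fun _ => by simp⟩, d.one] at h1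
    linarith
  refine ⟨fun x => c (p.1 + p.2.1 * (pt K n (fl n x) : K)), ?_, ?_⟩
  · have h1 : Measurable (fun m : ℤ × ℤ => c (p.1 + p.2.1 * (pt K n m : K))) := measurable_of_countable _
    exact h1.comp (measurable_fl n)
  · set F' := F.filter (fun f => c (p.1 + p.2.1 * (pt K n f.1 : K)) = c (p.1 + p.2.1 * (pt K n f.2 : K)))
      with hF'
    have hsub : {q : ℂ × ℝ | ‖q.1‖ ≤ N ∧ q.2 ∈ Ioc (0:ℝ) (2 * Real.pi) ∧
        c (p.1 + p.2.1 * (pt K n (fl n (q.1 + M.e q.2)) : K)) =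
          c (p.1 + p.2.1 * (pt K n (fl n q.1) : K))} ⊆ ⋃ f ∈ F', cell n N f := by
      rintro q ⟨h1, h2, h3⟩
      simp only [Set.mem_iUnion]
      refine ⟨(fl n (q.1 + M.e q.2), fl n q.1), ?_, ⟨h1, h2⟩, rfl, rfl⟩
      rw [hF', Finset.mem_filter]
      refine ⟨?_, h3⟩
      rw [hF, Finset.mem_product]
      refine ⟨hflB _ ?_, hflB _ ?_⟩
      · refine (norm_add_le _ _).trans ?_
        rw [norm_e]
        linarith
      · linarith
    refine (measure_mono hsub).trans ?_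
    refine (measure_biUnion_finset_le _ _).trans ?_
    have h1 : ∑ f ∈ F', volume (cell n N f) = ENNReal.ofReal (∑ f ∈ F', v f) := by
      rw [ENNReal.ofReal_sum_of_nonneg (fun f _ => hv0 f)]
      refine Finset.sum_congr rfl fun f _ => ?_
      rw [hv]
      exact (ENNReal.ofReal_toReal (hclt f)).symm
    rw [h1]
    refine ENNReal.ofReal_le_ofReal (le_trans ?_ hp)
    have h2 : ∑ f ∈ F, v f * W1 f p =
        ∑ f ∈ F, if c (p.1 + p.2.1 * (pt K n f.1 : K)) = c (p.1 + p.2.1 * (pt K n f.2 : K)) then v f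
          else 0 := by
      refine Finset.sum_congr rfl fun f _ => ?_
      show v f * (∑ i, cind c i (pt K n f.1) (pt K n f.2) p) = _
      rw [sum_cind]
      split_ifs <;> simp
    show _ ≤ ∑ f ∈ F, v f * W1 f p
    rw [h2, ← Finset.sum_filter]

theorem disc [Good K] (k : ℕ) (c : ℂ → Fin k) (d : CorrData K k c) (hdec : ∀ i, Decay (d.f i)) :
    ∃ cn : ℕ → ℂ → Fin k, (∀ n, Measurable (cn n)) ∧ AsymProper cn := by
  choose cN hm hv using fun N : ℕ => key k c d hdec N (1 / ((N : ℝ) + 1)) (by positivity)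
  refine ⟨cN, hm, fun R => ?_⟩
  have h0 : Tendsto (fun N : ℕ => ENNReal.ofReal (1 / ((N : ℝ) + 1))) atTop (𝓝 0) := by
    have := ENNReal.tendsto_ofReal (tendsto_one_div_add_atTop_nhds_zero_nat (𝕜 := ℝ))
    rwa [ENNReal.ofReal_zero] at this
  refine tendsto_of_tendsto_of_tendsto_of_le_of_le' tendsto_const_nhds h0
    (Eventually.of_forall fun _ => bot_le) ?_
  obtain ⟨N0, hN0⟩ := exists_nat_ge R
  filter_upwards [eventually_ge_atTop N0] with N hN
  refine le_trans (measure_mono ?_) (hv N)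
  rintro p ⟨h1, h2, h3⟩
  refine ⟨h1.trans (hN0.trans (by exact_mod_cast hN)), h2, h3⟩

end Vale.Agent.N032
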