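import Vale.Agent.N032.Base

/-!
P032 (new): the sets `E_z` of characters of `K` and Theorem A on lines, over the field `K`.
-/

open MeasureTheory Set Filter Topology
open scoped ENNReal NNReal

namespace Vale.Agent.N032

open Vale.Agent.P032
open Vale.Agent.P032.T hiding CorrData Decay UK ring
open Vale.Agent.P032.T.Ga
open Vale.Agent.P032.T.TT (QI G0_mul G0_nat den_ne re_bound measurable_ev norm_ev_le G0_sub_RRset)

variable {K : IntermediateField ℚ ℂ} [Good K]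

/-! ### the sets `E_z` -/

/-- rotation of characters -/
noncomputable def rot (u : K) (χ : K → Circle) : K → Circle := fun y => χ (u * y)

theorem measurable_rot (u : K) : Measurable (rot u) :=
  measurable_pi_lambda _ fun y => measurable_pi_apply (u * y)

/-- characters `χ` such that `y ↦ χ (z o y)` is continuous at `0` on `G0` for some `o ≥ 1` -/
def EE (z : K) : Set (K → Circle) :=
  {χ | IsChar χ ∧ ∃ o : ℕ, 0 < o ∧ ∀ ε : ℝ, 0 < ε → ∃ δ : ℝ, 0 < δ ∧
    ∀ y : K, (y : ℂ) ∈ G0 → ‖(y : ℂ)‖ < δ → dist (χ (z * (o * y))) 1 < ε}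

theorem measurableSet_isChar : MeasurableSet {χ : K → Circle | IsChar χ} := by
  have : {χ : K → Circle | IsChar χ} = ⋂ x, ⋂ y, {χ | χ (x + y) = χ x * χ y} := by
    ext χ; simp only [IsChar, mem_iInter, mem_ofPred_eq]
  rw [this]
  refine MeasurableSet.iInter fun x => MeasurableSet.iInter fun y => ?_
  exact measurableSet_eq_fun (measurable_pi_apply (x + y))
    (Measurable.mul (measurable_pi_apply x) (measurable_pi_apply y))

theorem EE_eq (z : K) : EE z = {χ | IsChar χ} ∩ ⋃ o : ℕ, ⋂ k : ℕ, ⋃ l : ℕ, ⋂ y : K,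
    {χ | 0 < o ∧ ((y : ℂ) ∈ G0 → ‖(y : ℂ)‖ < 1 / ((l : ℝ) + 1) →
      dist (χ (z * (o * y))) 1 < 1 / ((k : ℝ) + 1))} := by
  ext χ
  simp only [EE, mem_inter_iff, mem_ofPred_eq, mem_iUnion, mem_iInter]
  refine and_congr_right fun _ => exists_congr fun o => ?_
  constructor
  · rintro ⟨ho, h⟩ k
    obtain ⟨δ, hδ, hy⟩ := h (1 / ((k : ℝ) + 1)) (by positivity)
    obtain ⟨l, hl⟩ := exists_nat_one_div_lt hδ
    exact ⟨l, fun y => ⟨ho, fun h1 h2 => hy y h1 (h2.trans hl)⟩⟩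
  · intro h
    refine ⟨?_, fun ε hε => ?_⟩
    · obtain ⟨l, hl⟩ := h 0
      exact (hl 0).1
    · obtain ⟨k, hk⟩ := exists_nat_one_div_lt hε
      obtain ⟨l, hl⟩ := h k
      exact ⟨1 / ((l : ℝ) + 1), by positivity, fun y h1 h2 => ((hl y).2 h1 h2).trans hk⟩

theorem measurableSet_EE (z : K) : MeasurableSet (EE z) := by
  rw [EE_eq]
  refine measurableSet_isChar.inter (MeasurableSet.iUnion fun o => MeasurableSet.iInter fun k =>
    MeasurableSet.iUnion fun l => MeasurableSet.iInter fun y => ?_)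
  by_cases h : 0 < o ∧ (y : ℂ) ∈ G0 ∧ ‖(y : ℂ)‖ < 1 / ((l : ℝ) + 1)
  · have : {χ : K → Circle | 0 < o ∧ ((y : ℂ) ∈ G0 → ‖(y : ℂ)‖ < 1 / ((l : ℝ) + 1) →
      dist (χ (z * (o * y))) 1 < 1 / ((k : ℝ) + 1))} =
      {χ | dist (χ (z * (o * y))) 1 < 1 / ((k : ℝ) + 1)} := by
      ext χ; simp only [mem_ofPred_eq]; tauto
    rw [this]
    exact measurableSet_lt ((measurable_pi_apply _).dist measurable_const) measurable_const
  · by_cases ho : 0 < o
    · have : {χ : K → Circle | 0 < o ∧ ((y : ℂ) ∈ G0 → ‖(y : ℂ)‖ < 1 / ((l : ℝ) + 1) →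
        dist (χ (z * (o * y))) 1 < 1 / ((k : ℝ) + 1))} = univ := by
        ext χ; simp only [mem_ofPred_eq, mem_univ, iff_true]; tauto
      rw [this]; exact MeasurableSet.univ
    · have : {χ : K → Circle | 0 < o ∧ ((y : ℂ) ∈ G0 → ‖(y : ℂ)‖ < 1 / ((l : ℝ) + 1) →
        dist (χ (z * (o * y))) 1 < 1 / ((k : ℝ) + 1))} = ∅ := by
        ext χ; simp only [mem_ofPred_eq, mem_empty_iff_false, iff_false]; tauto
      rw [this]; exact MeasurableSet.empty

theorem EE_smul {z q : K} (hq : QI (q : ℂ)) : EE z ⊆ EE (q * z) := by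
  rintro χ ⟨hχ, o, ho, h⟩
  obtain ⟨N, g, hN, hg⟩ := hq.exists_den
  refine ⟨hχ, o * N, Nat.mul_pos ho hN, fun ε hε => ?_⟩
  obtain ⟨δ, hδ, hy⟩ := h ε hε
  refine ⟨δ / (‖(g : ℂ)‖ + 1), by positivity, fun y h1 h2 => ?_⟩
  have hc : (((N : K) * q * y : K) : ℂ) = (g : ℂ) * (y : ℂ) := by
    push_cast
    rw [← hg]
  have := hy ((N : K) * q * y) (by rw [hc]; exact G0_mul h1 g) (by
    rw [hc, norm_mul]
    rw [lt_div_iff₀ (by positivity)] at h2
    nlinarith [norm_nonneg (g : ℂ), norm_nonneg (y : ℂ)])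
  have e : q * z * ((o * N : ℕ) * y) = z * (o * ((N : K) * q * y)) := by push_cast; ring
  rw [e]
  exact this

theorem EE_smul_eq {z q : K} (hq : QI (q : ℂ)) (hq0 : q ≠ 0) : EE (q * z) = EE z := by
  apply Subset.antisymm _ (EE_smul hq)
  have h : QI ((q⁻¹ : K) : ℂ) := by push_cast; exact hq.inv
  have := EE_smul (z := q * z) h
  rwa [← mul_assoc, inv_mul_cancel₀ hq0, one_mul] at this

theorem EE_add (x y : K) : EE x ∩ EE y ⊆ EE (x + y) := by
  rintro χ ⟨⟨hχ, o, ho, h⟩, ⟨-, o', ho', h'⟩⟩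
  refine ⟨hχ, o * o', Nat.mul_pos ho ho', fun ε hε => ?_⟩
  obtain ⟨δ, hδ, hy⟩ := h (ε / 2) (by positivity)
  obtain ⟨δ', hδ', hy'⟩ := h' (ε / 2) (by positivity)
  have hoR : (0:ℝ) < o := by exact_mod_cast ho
  have hoR' : (0:ℝ) < o' := by exact_mod_cast ho'
  refine ⟨min (δ / o') (δ' / o), by positivity, fun w h1 h2 => ?_⟩
  have e : (x + y) * ((o * o' : ℕ) * w) = x * (o * (o' * w)) + y * (o' * (o * w)) := by
    push_cast; ring
  rw [e, hχ]
  have a1 := hy (o' * w) (by push_cast; exact G0_nat h1 o') (by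
    push_cast
    rw [norm_mul, Complex.norm_natCast]
    have := h2.trans_le (min_le_left _ _)
    rw [lt_div_iff₀ hoR'] at this
    linarith)
  have a2 := hy' (o * w) (by push_cast; exact G0_nat h1 o) (by
    push_cast
    rw [norm_mul, Complex.norm_natCast]
    have := h2.trans_le (min_le_right _ _)
    rw [lt_div_iff₀ hoR] at this
    linarith)
  exact (circle_dist_mul _ _).trans_lt (by linarith)

theorem isChar_rot {u : K} {χ : K → Circle} (h : IsChar χ) : IsChar (rot u χ) := by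
  intro x y
  simp only [rot]
  rw [mul_add, h]

theorem isChar_rot_iff {u : K} (hu : u ≠ 0) {χ : K → Circle} : IsChar (rot u χ) ↔ IsChar χ := by
  refine ⟨fun h => ?_, isChar_rot⟩
  have : rot u⁻¹ (rot u χ) = χ := by
    funext y; simp only [rot]; rw [← mul_assoc, mul_inv_cancel₀ hu, one_mul]
  rw [← this]
  exact isChar_rot h

theorem EE_rot {u : K} (hu : u ≠ 0) (z : K) : rot u ⁻¹' (EE z) = EE (u * z) := by
  ext χ
  simp only [EE, mem_preimage, mem_ofPred_eq, isChar_rot_iff hu]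
  refine and_congr_right fun _ => exists_congr fun o => and_congr_right fun _ => ?_
  simp only [rot, mul_assoc]

/-! ### the measure -/

/-- rotation invariance -/
def RInv (μ : Measure (K → Circle)) : Prop :=
  ∀ u : K, ‖(u : ℂ)‖ = 1 → MeasurePreserving (rot u) μ μ

theorem ne_zero_of_norm {u : K} (hu : ‖(u : ℂ)‖ = 1) : u ≠ 0 := by
  rintro rfl; simp at hu

variable {μ : Measure (K → Circle)}

theorem measure_EE (hI : RInv μ) {u : K} (hu : ‖(u : ℂ)‖ = 1) (z : K) :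
    μ (EE (u * z)) = μ (EE z) := by
  rw [← EE_rot (ne_zero_of_norm hu) z]
  exact (hI u hu).measure_preimage (measurableSet_EE z).nullMeasurableSet

/-- the unit vectors `(t + i s) / (t - i s)` -/
noncomputable def ut (s : K) (t : ℕ) : K :=
  ((t : K) + ⟨Complex.I, Good.I_mem⟩ * s) / ((t : K) - ⟨Complex.I, Good.I_mem⟩ * s)

theorem den_ne {s : ℝ} {t : ℕ} (ht : 0 < t) : (t : ℂ) - Complex.I * s ≠ 0 := by
  intro h
  have := congrArg Complex.re h
  simp at this
  omega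

theorem coe_ut {s : K} {sr : ℝ} (hs : (s : ℂ) = sr) (t : ℕ) :
    ((ut s t : K) : ℂ) = (t + Complex.I * sr) / (t - Complex.I * sr) := by
  unfold ut
  push_cast
  rw [hs]

theorem norm_ut {s : K} {sr : ℝ} (hs : (s : ℂ) = sr) {t : ℕ} (ht : 0 < t) :
    ‖((ut s t : K) : ℂ)‖ = 1 := by
  rw [coe_ut hs, norm_div]
  have h1 : (t : ℂ) + Complex.I * sr = (starRingEnd ℂ) (t - Complex.I * sr) := by
    apply Complex.ext <;> simp
  rw [h1, Complex.norm_conj]
  apply div_self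
  rw [norm_ne_zero_iff]
  exact den_ne ht

theorem ut_key {s : K} {sr : ℝ} {d : ℚ} (hs : (s : ℂ) = sr) (hd : sr ^ 2 = d)
    {t : ℕ} (ht : 0 < t) : ((ut s t : K) : ℂ) * ((t : ℂ) ^ 2 + d) =
      (t : ℂ) ^ 2 - d + 2 * Complex.I * t * sr := by
  have hd' : (sr : ℂ) ^ 2 = d := by exact_mod_cast congrArg (fun x : ℝ => (x : ℂ)) hd
  have hden : ((t : ℂ) - Complex.I * sr) ≠ 0 := den_ne ht
  rw [coe_ut hs, div_mul_eq_mul_div, div_eq_iff hden]
  linear_combination (2 * t * (sr : ℂ) ^ 2) * Complex.I_sq - (2 * t) * hd'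

/-- the square root step, pointwise part -/
theorem EE_inter {s : K} {sr : ℝ} {d : ℚ} (hs : (s : ℂ) = sr) (hd : sr ^ 2 = d) (x : K)
    {t t' : ℕ} (ht : 0 < t) (ht' : 0 < t') (hne : t ≠ t') :
    EE (ut s t * x) ∩ EE (ut s t' * x) ⊆ EE x ∩ EE (s * x) := by
  have hdpos : (0:ℚ) ≤ d := by
    have : (0:ℝ) ≤ d := by rw [← hd]; positivity
    exact_mod_cast this
  have htQ : (0:ℚ) < t := by exact_mod_cast ht
  have htQ' : (0:ℚ) < t' := by exact_mod_cast ht'
  have hneQ : (t : ℚ) - t' ≠ 0 := by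
    rw [sub_ne_zero]; exact_mod_cast hne
  have hp : (t : ℚ) * t' + d ≠ 0 := by positivity
  have hneC : (t : ℂ) - t' ≠ 0 := by exact_mod_cast hneQ
  have hpC : (t : ℂ) * t' + d ≠ 0 := by exact_mod_cast hp
  have k1 := ut_key hs hd ht
  have k2 := ut_key hs hd ht'
  set A := ((ut s t : K) : ℂ) with hA
  set B := ((ut s t' : K) : ℂ) with hB
  set r1 : ℚ := t' * (t ^ 2 + d) / ((t - t') * (t * t' + d)) with hr1
  set r2 : ℚ := - (t * (t' ^ 2 + d) / ((t - t') * (t * t' + d))) with hr2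
  set r3 : ℚ := (t' ^ 2 - d) * (t ^ 2 + d) / (2 * (t - t') * (t * t' + d)) with hr3
  set r4 : ℚ := - ((t ^ 2 - d) * (t' ^ 2 + d) / (2 * (t - t') * (t * t' + d))) with hr4
  have hMQ : ((t : ℚ) - t') * (t * t' + d) ≠ 0 := mul_ne_zero hneQ hp
  have hMC : ((t : ℂ) - t') * (t * t' + d) ≠ 0 := mul_ne_zero hneC hpC
  have q1 : (r1 : ℂ) * (((t : ℂ) - t') * (t * t' + d)) = t' * (t ^ 2 + d) := by
    have : r1 * (((t : ℚ) - t') * (t * t' + d)) = t' * (t ^ 2 + d) := by
      rw [hr1, div_mul_cancel₀ _ hMQ]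
    exact_mod_cast this
  have q2 : (r2 : ℂ) * (((t : ℂ) - t') * (t * t' + d)) = - (t * (t' ^ 2 + d)) := by
    have : r2 * (((t : ℚ) - t') * (t * t' + d)) = - (t * (t' ^ 2 + d)) := by
      rw [hr2, neg_mul, div_mul_cancel₀ _ hMQ]
    exact_mod_cast this
  have hMQ2 : 2 * ((t : ℚ) - t') * (t * t' + d) ≠ 0 :=
    mul_ne_zero (mul_ne_zero two_ne_zero hneQ) hp
  have hMC2 : 2 * ((t : ℂ) - t') * (t * t' + d) ≠ 0 :=
    mul_ne_zero (mul_ne_zero two_ne_zero hneC) hpC
  have q3 : (r3 : ℂ) * (2 * ((t : ℂ) - t') * (t * t' + d)) = (t' ^ 2 - d) * (t ^ 2 + d) := by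
    have : r3 * (2 * ((t : ℚ) - t') * (t * t' + d)) = (t' ^ 2 - d) * (t ^ 2 + d) := by
      rw [hr3, div_mul_cancel₀ _ hMQ2]
    exact_mod_cast this
  have q4 : (r4 : ℂ) * (2 * ((t : ℂ) - t') * (t * t' + d)) = - ((t ^ 2 - d) * (t' ^ 2 + d)) := by
    have : r4 * (2 * ((t : ℚ) - t') * (t * t' + d)) = - ((t ^ 2 - d) * (t' ^ 2 + d)) := by
      rw [hr4, neg_mul, div_mul_cancel₀ _ hMQ2]
    exact_mod_cast this
  have e1 : (r1 : ℂ) * A + r2 * B = 1 := by
    apply mul_right_cancel₀ hMC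
    linear_combination A * q1 + B * q2 + (t' : ℂ) * k1 - (t : ℂ) * k2
  have e2 : (Complex.I * r3) * A + (Complex.I * r4) * B = sr := by
    apply mul_right_cancel₀ hMC2
    linear_combination (Complex.I * A) * q3 + (Complex.I * B) * q4 +
      (Complex.I * ((t' : ℂ) ^ 2 - d)) * k1 - (Complex.I * ((t : ℂ) ^ 2 - d)) * k2
      + (2 * sr * (t' - t) * (t * t' + d)) * Complex.I_sq
  rintro χ ⟨h1, h2⟩
  constructor
  · have a1 := EE_smul (q := ((r1 : ℚ) : K)) (by push_cast; exact TT.QI.rat r1) h1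
    have a2 := EE_smul (q := ((r2 : ℚ) : K)) (by push_cast; exact TT.QI.rat r2) h2
    have a3 := EE_add _ _ ⟨a1, a2⟩
    have : ((r1 : ℚ) : K) * (ut s t * x) + ((r2 : ℚ) : K) * (ut s t' * x) = x := by
      apply Subtype.ext
      push_cast
      rw [← hA, ← hB]
      linear_combination (x : ℂ) * e1
    rwa [this] at a3
  · have a1 := EE_smul (q := ⟨Complex.I, Good.I_mem⟩ * ((r3 : ℚ) : K))
      (by push_cast; exact TT.QI.I.mul (TT.QI.rat r3)) h1
    have a2 := EE_smul (q := ⟨Complex.I, Good.I_mem⟩ * ((r4 : ℚ) : K))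
      (by push_cast; exact TT.QI.I.mul (TT.QI.rat r4)) h2
    have a3 := EE_add _ _ ⟨a1, a2⟩
    have : ⟨Complex.I, Good.I_mem⟩ * ((r3 : ℚ) : K) * (ut s t * x) +
        ⟨Complex.I, Good.I_mem⟩ * ((r4 : ℚ) : K) * (ut s t' * x) = s * x := by
      apply Subtype.ext
      push_cast
      rw [← hA, ← hB, hs]
      linear_combination (x : ℂ) * e2
    rwa [this] at a3

/-- the square root step -/
theorem EE_sqrt [IsFiniteMeasure μ] (hI : RInv μ) {s : K} {sr : ℝ} {d : ℚ} (hs : (s : ℂ) = sr)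
    (hd : sr ^ 2 = d) (x : K) : μ (EE x \ EE (s * x)) = 0 := by
  set W := EE x ∩ EE (s * x) with hW
  have hWm : MeasurableSet W := (measurableSet_EE _).inter (measurableSet_EE _)
  have hx : EE x \ EE (s * x) = EE x \ W := by rw [hW]; simp
  rw [hx]
  by_contra hne
  have hpos : 0 < μ (EE x \ W) := pos_iff_ne_zero.2 hne
  have hge : ∀ t : ℕ, μ (EE x \ W) ≤ μ (EE (ut s (t + 1) * x) \ W) := by
    intro t
    rw [measure_sdiff inter_subset_left hWm.nullMeasurableSet (measure_ne_top _ _),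
      ← measure_EE hI (norm_ut hs (Nat.succ_pos t)) x]
    exact le_measure_sdiff
  have hdis : Pairwise (Function.onFun Disjoint fun t : ℕ => EE (ut s (t + 1) * x) \ W) := by
    intro t t' htt
    rw [Function.onFun, Set.disjoint_left]
    rintro χ ⟨h1, h2⟩ ⟨h3, -⟩
    exact h2 (EE_inter hs hd x (Nat.succ_pos t) (Nat.succ_pos t') (by omega) ⟨h1, h3⟩)
  have hsum := measure_iUnion (μ := μ) hdis
    (fun t => (measurableSet_EE (ut s (t + 1) * x)).diff hWm)
  have hinf : ∑' _ : ℕ, μ (EE x \ W) ≤ ∑' t : ℕ, μ (EE (ut s (t + 1) * x) \ W) :=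
    ENNReal.tsum_le_tsum hge
  rw [← hsum, ENNReal.tsum_const_eq_top_of_ne_zero hne] at hinf
  exact (measure_lt_top μ _).not_ge hinf

/-- `E_u = E_1` almost everywhere for unit vectors in a quadratic extension of `Q(i)` -/
theorem EE_unit [IsFiniteMeasure μ] (hI : RInv μ) {s : K} {sr : ℝ} {d : ℚ} (hs : (s : ℂ) = sr)
    (hd : sr ^ 2 = d) {a b u : K} (ha : QI (a : ℂ)) (hb : QI (b : ℂ)) (hu : u = a + b * s)
    (hu1 : ‖(u : ℂ)‖ = 1) : EE u =ᵐ[μ] EE 1 := by
  have h1 : μ (EE 1 \ EE s) = 0 := by simpa using EE_sqrt hI hs hd 1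
  have h2 : EE 1 ∩ EE s ⊆ EE u := by
    rintro χ ⟨h, h'⟩
    have a1 := EE_smul ha h
    have a2 := EE_smul hb h'
    rw [hu]
    simpa using EE_add _ _ ⟨a1, a2⟩
  have h3 : μ (EE 1 \ EE u) = 0 := by
    refine measure_mono_null ?_ h1
    rintro χ ⟨h, h'⟩
    exact ⟨h, fun h4 => h' (h2 ⟨h, h4⟩)⟩
  have h4 : μ (EE u) = μ (EE 1) := by
    have := measure_EE hI hu1 1
    rwa [mul_one] at this
  have h5 : EE 1 ≤ᵐ[μ] EE u := by
    rw [ae_le_set]; exact h3
  exact (ae_eq_of_ae_subset_of_measure_ge h5 h4.le (measurableSet_EE _).nullMeasurableSet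
    (measure_ne_top _ _)).symm

/-- `g(x) = ∫_{E_1} (1 - Re χ(x))` -/
noncomputable def gg (μ : Measure (K → Circle)) (x : K) : ℝ :=
  ∫ χ in EE 1, (1 - ((χ x : Circle) : ℂ).re) ∂μ

theorem measurable_re (x : K) : Measurable fun χ : K → Circle => 1 - ((χ x : Circle) : ℂ).re :=
  measurable_const.sub (Complex.measurable_re.comp (continuous_coeC.measurable.comp
    (measurable_pi_apply x)))

theorem integrable_re [IsFiniteMeasure μ] (x : K) :
    Integrable (fun χ : K → Circle => 1 - ((χ x : Circle) : ℂ).re) μ := by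
  refine Integrable.of_bound (measurable_re x).aestronglyMeasurable 2
    (Eventually.of_forall fun χ => ?_)
  rw [Real.norm_eq_abs, abs_le]
  constructor <;> linarith [(re_bound (χ x)).1, (re_bound (χ x)).2]

theorem gg_nonneg (x : K) : 0 ≤ gg μ x :=
  integral_nonneg fun χ => (re_bound (χ x)).1

theorem integral_compl [IsFiniteMeasure μ]
    (hχ : ∀ᵐ χ ∂μ, IsChar χ) (hI : RInv μ) (z : K) :
    ∫ χ in (EE z)ᶜ, ((χ z : Circle) : ℂ) ∂μ = 0 := by
  obtain ⟨R, hRc, hRset⟩ := ring (K := K)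
  let j : R →+* ℂ := (K.val : K →ₐ[ℚ] ℂ).toRingHom.comp R.subtype
  have hj : ∀ y : R, j y = ((y : K) : ℂ) := fun y => rfl
  have hjinj : Function.Injective j := by
    intro a b hab
    rw [hj, hj] at hab
    exact Subtype.ext (Subtype.ext hab)
  have hrange : range j = RRset := by
    ext w
    rw [hRset w]
    constructor
    · rintro ⟨y, rfl⟩; exact ⟨y, y.2, rfl⟩
    · rintro ⟨y, hy, rfl⟩; exact ⟨⟨y, hy⟩, rfl⟩
  let L : (K → Circle) → (R → Circle) := fun χ y => χ (z * y)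
  have hL : Measurable L := measurable_pi_lambda _ fun y => measurable_pi_apply _
  set ν : Measure (K → Circle) := μ.restrict (EE z)ᶜ with hν
  have hcm : MeasurableSet {χ : R → Circle | IsChar χ} := by
    have : {χ : R → Circle | IsChar χ} = ⋂ x, ⋂ y, {χ | χ (x + y) = χ x * χ y} := by
      ext χ; simp only [IsChar, mem_iInter, mem_ofPred_eq]
    rw [this]
    refine MeasurableSet.iInter fun x => MeasurableSet.iInter fun y => ?_
    exact measurableSet_eq_fun (measurable_pi_apply (x + y))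
      (Measurable.mul (measurable_pi_apply x) (measurable_pi_apply y))
  have hνχ : ∀ᵐ χ ∂ν, IsChar χ := ae_restrict_of_ae hχ
  have h1 : ∀ᵐ χ ∂(ν.map L), IsChar χ := by
    rw [ae_map_iff hL.aemeasurable hcm]
    filter_upwards [hνχ] with χ hχ x y
    show χ (z * ((x + y : R) : K)) = _
    push_cast
    rw [mul_add, hχ]
  have h2 : ∀ u : R, ‖j u‖ = 1 →
      MeasurePreserving (fun (χ : R → Circle) y => χ (u * y)) (ν.map L) (ν.map L) := by
    intro u hu
    have hu' : ‖((u : K) : ℂ)‖ = 1 := hu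
    have hu0 : (u : K) ≠ 0 := ne_zero_of_norm hu'
    have hV : Measurable fun (χ : R → Circle) (y : R) => χ (u * y) :=
      measurable_pi_lambda _ fun y => measurable_pi_apply _
    have huQ : QI ((u : K) : ℂ) := TT.QI.of_RRset (by rw [← hrange]; exact ⟨u, rfl⟩)
    have hpre : rot (u : K) ⁻¹' (EE z)ᶜ = (EE z)ᶜ := by
      rw [preimage_compl, EE_rot hu0, EE_smul_eq huQ hu0]
    have hp := (hI u hu').restrict_preimage (measurableSet_EE z).compl
    rw [hpre] at hp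
    refine ⟨hV, ?_⟩
    rw [Measure.map_map hV hL]
    have : (fun (χ : R → Circle) (y : R) => χ (u * y)) ∘ L = L ∘ rot (u : K) := by
      funext χ y
      show χ (z * ((u * y : R) : K)) = χ (u * (z * y))
      push_cast
      congr 1
      ring
    rw [this, ← Measure.map_map hL (measurable_rot _), hp.map_eq]
  obtain ⟨Xc, hXm, h0, hcont⟩ := thmA R j hjinj hrange (ν.map L) h1 h2
  have hmem : ∀ᵐ χ ∂(ν.map L), χ ∈ Xc := by
    refine (ae_map_iff (p := fun χ => χ ∈ Xc) hL.aemeasurable hXm).2 ?_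
    have h3 := ae_of_ae_map hL.aemeasurable hcont
    have h4 : ∀ᵐ χ ∂ν, χ ∈ (EE z)ᶜ := ae_restrict_mem (measurableSet_EE z).compl
    filter_upwards [h3, h4, hνχ] with χ a1 a2 a3
    by_contra hne
    obtain ⟨o, ho, h⟩ := a1 hne
    apply a2
    refine ⟨a3, o, ho, fun ε hε => ?_⟩
    obtain ⟨δ, hδ, hy⟩ := h ε hε
    refine ⟨δ, hδ, fun y hy1 hy2 => ?_⟩
    obtain ⟨y', hy'R, hy'⟩ := (hRset (y : ℂ)).1 (G0_sub_RRset hy1)
    have hyy : y' = y := Subtype.ext hy'
    subst hyy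
    have := hy ⟨y', hy'R⟩ hy1 hy2
    have e : L χ (o • (⟨y', hy'R⟩ : R)) = χ (z * (o * y')) := by
      show χ (z * ((o • (⟨y', hy'R⟩ : R) : R) : K)) = _
      congr 2
      simp
    rwa [e] at this
  have h5 := h0 1 one_ne_zero
  rw [Measure.restrict_eq_self_of_ae_mem hmem] at h5
  have h6 : ∫ χ, ((χ 1 : Circle) : ℂ) ∂(ν.map L) = ∫ χ, ((L χ 1 : Circle) : ℂ) ∂ν :=
    integral_map hL.aemeasurable (measurable_ev (1 : R)).aestronglyMeasurable
  rw [h6] at h5
  have h7 : ∀ χ : K → Circle, L χ 1 = χ z := by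
    intro χ
    show χ (z * ((1 : R) : K)) = χ z
    rw [OneMemClass.coe_one, mul_one]
  simp only [h7] at h5
  exact h5

end Vale.Agent.N032
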