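import Vale.Agent.N032.Main

/-!
P032 (new): a brick colouring with seven colours, and a finite set with coordinates in an explicit
multiquadratic number field which has the chromatic number of the plane.
-/

open Set

namespace Vale.Agent.N032

open Vale.Agent.P032

theorem six_le {k : ℕ} (c : EuclideanSpace ℝ (Fin 2) → Fin k)
    (hc : ∀ x y : EuclideanSpace ℝ (Fin 2), dist x y = 1 → c x ≠ c y) : 6 ≤ k := by
  let φ : ℂ ≃ₗᵢ[ℝ] EuclideanSpace ℝ (Fin 2) := Complex.orthonormalBasisOneI.repr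
  refine T.chi_six k (fun z => c (φ z)) fun x y h => hc _ _ ?_
  rw [φ.dist_map]
  exact h

theorem brick {X Y : ℝ} {j m : ℤ} (h : X ^ 2 + Y ^ 2 = 100 / 49) (hY : |Y - j| < 1)
    (hX : |X - 49 / 20 * j - 7 * m| < 1) : False := by
  rw [abs_lt] at hX hY
  have hX2 : |X| ≤ 10 / 7 := abs_le_of_sq_le_sq' (by nlinarith [sq_nonneg Y]) (by norm_num) |> abs_le.2
  have hY2 : |Y| ≤ 10 / 7 := abs_le_of_sq_le_sq' (by nlinarith [sq_nonneg X]) (by norm_num) |> abs_le.2
  rw [abs_le] at hX2 hY2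
  have hj1 : j < 3 := by have : (j : ℝ) < 3 := by linarith
                         exact_mod_cast this
  have hj2 : -3 < j := by have : (-3 : ℝ) < j := by linarith
                          exact_mod_cast this
  have hj1' : (j : ℝ) ≤ 2 := by exact_mod_cast (show j ≤ 2 by omega)
  have hj2' : (-2 : ℝ) ≤ j := by exact_mod_cast (show -2 ≤ j by omega)
  have hm1 : m < 2 := by have : (m : ℝ) < 2 := by linarith
                         exact_mod_cast this
  have hm2 : -2 < m := by have : (-2 : ℝ) < m := by linarith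
                          exact_mod_cast this
  interval_cases j <;> interval_cases m <;> push_cast at * <;> nlinarith

theorem seven : ∃ c : EuclideanSpace ℝ (Fin 2) → Fin 7, ∀ x y, dist x y = 1 → c x ≠ c y := by
  let r : EuclideanSpace ℝ (Fin 2) → ℤ := fun x => ⌊10 / 7 * x 1⌋
  let q : EuclideanSpace ℝ (Fin 2) → ℤ := fun x => ⌊10 / 7 * x 0 - 49 / 20 * r x⌋
  refine ⟨fun x => ((q x : ZMod 7) : Fin 7), fun x y hxy h => ?_⟩
  have h1 : (q x : ZMod 7) = (q y : ZMod 7) := h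
  rw [ZMod.intCast_eq_intCast_iff_dvd_sub] at h1
  obtain ⟨m, hm⟩ := h1
  have hm' : (q y : ℝ) - q x = 7 * m := by exact_mod_cast hm
  have h2 : (y 0 - x 0) ^ 2 + (y 1 - x 1) ^ 2 = 1 := by
    have := EuclideanSpace.dist_sq_eq y x
    rw [dist_comm, hxy, Fin.sum_univ_two, Real.dist_eq, Real.dist_eq, sq_abs, sq_abs] at this
    linarith
  have a1 := Int.floor_le (10 / 7 * x 1)
  have a2 := Int.lt_floor_add_one (10 / 7 * x 1)
  have a3 := Int.floor_le (10 / 7 * y 1)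
  have a4 := Int.lt_floor_add_one (10 / 7 * y 1)
  have b1 := Int.floor_le (10 / 7 * x 0 - 49 / 20 * r x)
  have b2 := Int.lt_floor_add_one (10 / 7 * x 0 - 49 / 20 * r x)
  have b3 := Int.floor_le (10 / 7 * y 0 - 49 / 20 * r y)
  have b4 := Int.lt_floor_add_one (10 / 7 * y 0 - 49 / 20 * r y)
  refine brick (X := 10 / 7 * (y 0 - x 0)) (Y := 10 / 7 * (y 1 - x 1)) (j := r y - r x) (m := m)
    (by nlinarith) ?_ ?_
  · rw [abs_lt]; push_cast
    constructor <;> linarith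
  · rw [abs_lt]; push_cast
    constructor <;> linarith

theorem finite_set : ∃ (n : ℕ) (S : Finset (EuclideanSpace ℝ (Fin 2))),
    (∀ x ∈ S, ∀ i, x i ∈ Subfield.closure
      {r : ℝ | ∃ p : ℕ, p.Prime ∧ p ≤ n ∧ p % 4 ≠ 1 ∧ r = √(4 * p - 1)}) ∧
    ∀ (k : ℕ) (c : EuclideanSpace ℝ (Fin 2) → Fin k),
      (∀ x ∈ S, ∀ y ∈ S, dist x y = 1 → c x ≠ c y) →
      6 ≤ k ∧ ∃ c' : EuclideanSpace ℝ (Fin 2) → Fin k, ∀ x y, dist x y = 1 → c' x ≠ c' y := by
  classical
  let A : ℕ → Set ℝ := fun n => {r : ℝ | ∃ p : ℕ, p.Prime ∧ p ≤ n ∧ p % 4 ≠ 1 ∧ r = √(4 * p - 1)}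
  have hA : Monotone fun n => Subfield.closure (A n) := fun n m h => Subfield.closure_mono (by
    rintro r ⟨p, h1, h2, h3⟩
    exact ⟨p, h1, h2.trans h, h3⟩)
  let F : Subfield ℝ := ⨆ n, Subfield.closure (A n)
  have hF : ∀ p : ℕ, p.Prime → p % 4 ≠ 1 → √((4 * p - 1 : ℕ) : ℝ) ∈ F := by
    intro p hp h
    refine le_iSup (fun n => Subfield.closure (A n)) p (Subfield.subset_closure ⟨p, hp, le_rfl, h, ?_⟩)
    have := hp.pos
    rw [Nat.cast_sub (by omega)]
    push_cast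
    rfl
  have key := field_iff F ⟨4 * 2 - 1, by norm_num, hF 2 Nat.prime_two (by norm_num)⟩ (by
    intro p hp h3
    have : Fact p.Prime := ⟨hp⟩
    refine ⟨4 * p - 1, ?_, hF p hp (by omega)⟩
    have := hp.pos
    rw [Nat.cast_sub (by omega)]
    simp only [Nat.cast_mul, CharP.cast_eq_zero, mul_zero, Nat.cast_one, zero_sub]
    rw [ZMod.exists_sq_eq_neg_one_iff]
    simpa using h3)
  obtain ⟨k₀, hk5, hno, c₀, hc₀⟩ : ∃ k₀ : ℕ, 5 ≤ k₀ ∧
      (¬ ∃ c : EuclideanSpace ℝ (Fin 2) → Fin k₀, ∀ x y, dist x y = 1 → c x ≠ c y) ∧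
      ∃ c : EuclideanSpace ℝ (Fin 2) → Fin (k₀ + 1), ∀ x y, dist x y = 1 → c x ≠ c y := by
    by_cases h6 : ∃ c : EuclideanSpace ℝ (Fin 2) → Fin 6, ∀ x y, dist x y = 1 → c x ≠ c y
    · exact ⟨5, le_rfl, fun ⟨c, hc⟩ => absurd (six_le c hc) (by norm_num), h6⟩
    · exact ⟨6, by norm_num, h6, seven⟩
  rw [key] at hno
  push Not at hno
  obtain ⟨S, hS, hSc⟩ := hno
  have hex : ∀ x : EuclideanSpace ℝ (Fin 2), ∀ i, ∃ n, x ∈ S → x i ∈ Subfield.closure (A n) := by
    intro x i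
    by_cases hx : x ∈ S
    · obtain ⟨n, hn⟩ := (Subfield.mem_iSup_of_directed hA.directed_le).1 (hS x hx i)
      exact ⟨n, fun _ => hn⟩
    · exact ⟨0, fun h => absurd h hx⟩
  choose N hN using hex
  refine ⟨S.sup fun x => Finset.univ.sup (N x), S, fun x hx i => hA ?_ (hN x i hx), ?_⟩
  · exact (Finset.le_sup (f := N x) (Finset.mem_univ i)).trans
      (Finset.le_sup (f := fun x => Finset.univ.sup (N x)) hx)
  · intro k c hc
    have hk : k₀ + 1 ≤ k := by
      by_contra hcon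
      obtain ⟨x, hx, y, hy, h1, h2⟩ := hSc fun x => Fin.castLE (by omega) (c x)
      exact hc x hx y hy h1 (Fin.castLE_injective _ h2)
    exact ⟨by omega, fun x => Fin.castLE hk (c₀ x),
      fun x y h h2 => hc₀ x y h (Fin.castLE_injective _ h2)⟩

end Vale.Agent.N032
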