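import Vale.Agent.N032.EE

/-!
P032 (new): removing the integer `o` of Theorem A one prime at a time.  A single rotation `u` of `K`
whose trace `u + u⁻¹` is rational with denominator divisible by `p` removes the prime `p`: the
`p`-adic conductor along the orbit `u ^ n` is a stationary process without positive local maximum.
-/

open MeasureTheory Set Filter Topology
open scoped ENNReal NNReal

namespace Vale.Agent.N032

open Vale.Agent.P032
open Vale.Agent.P032.T hiding CorrData Decay UK ring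
open Vale.Agent.P032.T.Ga
open Vale.Agent.P032.T.TT (QI G0_mul G0_nat den_ne re_bound measurable_ev norm_ev_le G0_sub_RRset)

variable {K : IntermediateField ℚ ℂ}

/-- `y ↦ χ (z y)` is continuous at `0` on `G0` -/
def CC (z : K) (χ : K → Circle) : Prop :=
  ∀ ε : ℝ, 0 < ε → ∃ δ : ℝ, 0 < δ ∧ ∀ y : K, (y : ℂ) ∈ G0 → ‖(y : ℂ)‖ < δ → dist (χ (z * y)) 1 < ε

theorem mem_EE {z : K} {χ : K → Circle} :
    χ ∈ EE z ↔ IsChar χ ∧ ∃ o : ℕ, 0 < o ∧ CC (z * (o : K)) χ := by
  simp only [EE, CC, mem_ofPred_eq, mul_assoc]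

theorem CC.int {z : K} {χ : K → Circle} (h : CC z χ) (m : ℤ) : CC (z * (m : K)) χ := by
  intro ε hε
  obtain ⟨δ, hδ, hy⟩ := h ε hε
  refine ⟨δ / (|(m : ℝ)| + 1), by positivity, fun y h1 h2 => ?_⟩
  have hc : (((m : K) * y : K) : ℂ) = ((m : GaussianInt) : ℂ) * (y : ℂ) := by
    push_cast; simp
  have := hy ((m : K) * y) (by rw [hc]; exact G0_mul h1 _) (by
    rw [hc, norm_mul]
    rw [lt_div_iff₀ (by positivity)] at h2
    have h3 : ‖((m : GaussianInt) : ℂ)‖ = |(m : ℝ)| := by simp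
    rw [h3]
    nlinarith [norm_nonneg (y : ℂ), abs_nonneg (m : ℝ)])
  rwa [mul_assoc]

theorem CC.add {z w : K} {χ : K → Circle} (hχ : IsChar χ) (h : CC z χ) (h' : CC w χ) :
    CC (z + w) χ := by
  intro ε hε
  obtain ⟨δ, hδ, hy⟩ := h (ε / 2) (by positivity)
  obtain ⟨δ', hδ', hy'⟩ := h' (ε / 2) (by positivity)
  refine ⟨min δ δ', by positivity, fun y h1 h2 => ?_⟩
  rw [add_mul, hχ]
  have a1 := hy y h1 (h2.trans_le (min_le_left _ _))
  have a2 := hy' y h1 (h2.trans_le (min_le_right _ _))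
  exact (circle_dist_mul _ _).trans_lt (by linarith)

theorem measurableSet_CC [Good K] (z : K) : MeasurableSet {χ : K → Circle | CC z χ} := by
  have : {χ : K → Circle | CC z χ} = ⋂ k : ℕ, ⋃ l : ℕ, ⋂ y : K,
      {χ | (y : ℂ) ∈ G0 → ‖(y : ℂ)‖ < 1 / ((l : ℝ) + 1) →
        dist (χ (z * y)) 1 < 1 / ((k : ℝ) + 1)} := by
    ext χ
    simp only [CC, mem_ofPred_eq, mem_iUnion, mem_iInter]
    constructor
    · intro h k
      obtain ⟨δ, hδ, hy⟩ := h (1 / ((k : ℝ) + 1)) (by positivity)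
      obtain ⟨l, hl⟩ := exists_nat_one_div_lt hδ
      exact ⟨l, fun y h1 h2 => hy y h1 (h2.trans hl)⟩
    · intro h ε hε
      obtain ⟨k, hk⟩ := exists_nat_one_div_lt hε
      obtain ⟨l, hl⟩ := h k
      exact ⟨1 / ((l : ℝ) + 1), by positivity, fun y h1 h2 => (hl y h1 h2).trans hk⟩
  rw [this]
  refine MeasurableSet.iInter fun k => MeasurableSet.iUnion fun l => MeasurableSet.iInter fun y => ?_
  by_cases h : (y : ℂ) ∈ G0 ∧ ‖(y : ℂ)‖ < 1 / ((l : ℝ) + 1)
  · have : {χ : K → Circle | (y : ℂ) ∈ G0 → ‖(y : ℂ)‖ < 1 / ((l : ℝ) + 1) →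
        dist (χ (z * y)) 1 < 1 / ((k : ℝ) + 1)} =
        {χ | dist (χ (z * y)) 1 < 1 / ((k : ℝ) + 1)} := by
      ext χ; simp only [mem_ofPred_eq]; tauto
    rw [this]
    exact measurableSet_lt ((measurable_pi_apply _).dist measurable_const) measurable_const
  · have : {χ : K → Circle | (y : ℂ) ∈ G0 → ‖(y : ℂ)‖ < 1 / ((l : ℝ) + 1) →
        dist (χ (z * y)) 1 < 1 / ((k : ℝ) + 1)} = univ := by
      ext χ; simp only [mem_ofPred_eq, mem_univ, iff_true]; tauto
    rw [this]; exact MeasurableSet.univ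

/-- characters whose conductor on the line of `z` has `p`-adic valuation at most `a` -/
def BB (p : ℕ) (z : K) (a : ℕ) : Set (K → Circle) :=
  {χ | IsChar χ ∧ ∃ o : ℕ, ¬ p ∣ o ∧ CC (z * ((p : K) ^ a * (o : K))) χ}

theorem measurableSet_BB [Good K] (p : ℕ) (z : K) (a : ℕ) : MeasurableSet (BB p z a) := by
  have : BB p z a = {χ | IsChar χ} ∩ ⋃ o : ℕ, ⋃ _ : ¬ p ∣ o, {χ | CC (z * ((p : K) ^ a * (o : K))) χ} := by
    ext χ; simp [BB]
  rw [this]
  exact measurableSet_isChar.inter (MeasurableSet.iUnion fun o => MeasurableSet.iUnion fun _ =>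
    measurableSet_CC _)

theorem BB_mono (p : ℕ) (z : K) : Monotone (BB p z) := by
  refine monotone_nat_of_le_succ fun a => ?_
  rintro χ ⟨hχ, o, ho, h⟩
  refine ⟨hχ, o, ho, ?_⟩
  have := h.int p
  convert this using 1
  push_cast; ring

theorem exists_BB {p : ℕ} (hp : p.Prime) {z : K} {χ : K → Circle} (h : χ ∈ EE z) :
    ∃ a, χ ∈ BB p z a := by
  obtain ⟨hχ, o, ho, h⟩ := mem_EE.1 h
  obtain ⟨a, o', h1, rfl⟩ := Nat.exists_eq_pow_mul_and_not_dvd ho.ne' p hp.ne_one
  exact ⟨a, hχ, o', h1, by simpa using h⟩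

theorem BB_rot [Good K] {u : K} (hu : u ≠ 0) (p : ℕ) (z : K) (a : ℕ) :
    rot u ⁻¹' (BB p z a) = BB p (u * z) a := by
  ext χ
  simp only [BB, CC, mem_preimage, mem_ofPred_eq, isChar_rot_iff hu]
  refine and_congr_right fun _ => exists_congr fun o => and_congr_right fun _ => ?_
  simp only [rot, mul_assoc]

/-- the three term relation -/
theorem BB_step {p : ℕ} (hp : p.Prime) {τ : ℚ} (hτ : p ∣ τ.den) {x y z : K}
    (h : x + y = (τ : K) * z) (a : ℕ) : BB p x (a + 1) ∩ BB p y (a + 1) ⊆ BB p z a := by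
  rintro χ ⟨⟨hχ, o, ho, h1⟩, ⟨-, o', ho', h2⟩⟩
  obtain ⟨b, hb⟩ := hτ
  have hnum : ¬ p ∣ τ.num.natAbs := by
    intro h3
    have h4 : p ∣ Nat.gcd τ.num.natAbs τ.den := Nat.dvd_gcd h3 ⟨b, hb⟩
    rw [τ.reduced] at h4
    exact hp.ne_one (Nat.dvd_one.1 h4)
  refine ⟨hχ, o * o' * τ.num.natAbs, ?_, ?_⟩
  · intro h3
    rcases (Nat.Prime.dvd_mul hp).1 h3 with h4 | h4
    · rcases (Nat.Prime.dvd_mul hp).1 h4 with h5 | h5
      · exact ho h5
      · exact ho' h5
    · exact hnum h4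
  · have h3 := ((h1.int (o' * b)).add hχ (h2.int (o * b))).int τ.num.sign
    convert h3 using 1
    have e1 : (τ : K) * ((p : K) * b) = (τ.num : K) := by
      have : τ * ((p * b : ℕ) : ℚ) = τ.num := by rw [← hb]; exact Rat.mul_den_eq_num τ
      have h5 := congrArg (fun q : ℚ => (q : K)) this
      simpa using h5
    have e2 : ((τ.num.natAbs : ℕ) : K) = (τ.num : K) * (τ.num.sign : K) := by
      have : ((τ.num.natAbs : ℕ) : ℤ) = τ.num * τ.num.sign := (Int.mul_sign_self τ.num).symm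
      have h5 := congrArg (fun q : ℤ => (q : K)) this
      simp only [Int.cast_natCast, Int.cast_mul] at h5
      exact h5
    rw [Nat.cast_mul, Nat.cast_mul, e2]
    push_cast
    linear_combination (-(z * (p : K) ^ a * o * o' * (τ.num.sign : K))) * e1 -
      ((p : K) ^ (a + 1) * o * o' * b * (τ.num.sign : K)) * h

/-- a sequence without positive local maximum escapes in one direction -/
theorem escape (a : ℤ → ℕ) (h : ∀ n, 1 ≤ a n → a n < a (n + 1) ∨ a n < a (n - 1)) (h0 : 1 ≤ a 0) :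
    (∀ k : ℕ, k < a k) ∨ (∀ k : ℕ, k < a (-k)) := by
  rcases h 0 h0 with h1 | h1
  · left
    have : ∀ k : ℕ, k < a k ∧ a k < a (k + 1) := by
      intro k
      induction k with
      | zero => exact ⟨h0, by simpa using h1⟩
      | succ k ih =>
        push_cast
        refine ⟨by omega, ?_⟩
        rcases h (k + 1) (by omega) with h2 | h2
        · exact h2
        · rw [add_sub_cancel_right] at h2; omega
    exact fun k => (this k).1
  · right
    have : ∀ k : ℕ, k < a (-k) ∧ a (-k) < a (-k - 1) := by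
      intro k
      induction k with
      | zero => exact ⟨h0, by simpa using h1⟩
      | succ k ih =>
        push_cast
        have e : (-((k : ℤ) + 1)) = -k - 1 := by ring
        rw [e]
        refine ⟨by omega, ?_⟩
        rcases h (-k - 1) (by omega) with h2 | h2
        · rw [sub_add_cancel] at h2; omega
        · exact h2
    exact fun k => (this k).1

variable [Good K] {μ : Measure (K → Circle)}

omit [Good K] in
theorem norm_zpow_unit {u : K} (hu : ‖(u : ℂ)‖ = 1) (n : ℤ) : ‖((u ^ n : K) : ℂ)‖ = 1 := by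
  have : ((u ^ n : K) : ℂ) = (u : ℂ) ^ n := map_zpow₀ K.val u n
  rw [this, norm_zpow, hu, one_zpow]

theorem EE_zpow (hI : RInv μ) {u : K} (hu : ‖(u : ℂ)‖ = 1) (h : EE u =ᵐ[μ] EE 1) (n : ℤ) :
    EE (u ^ n) =ᵐ[μ] EE 1 := by
  have hu0 := ne_zero_of_norm hu
  have hui : ‖((u⁻¹ : K) : ℂ)‖ = 1 := by push_cast; rw [norm_inv, hu, inv_one]
  have step : ∀ {v z : K}, ‖(v : ℂ)‖ = 1 → EE v =ᵐ[μ] EE 1 → EE z =ᵐ[μ] EE 1 →
      EE (v * z) =ᵐ[μ] EE 1 := by
    intro v z hv h1 h2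
    have h3 := (hI v hv).quasiMeasurePreserving.preimage_ae_eq h2
    rw [EE_rot (ne_zero_of_norm hv), EE_rot (ne_zero_of_norm hv), mul_one] at h3
    exact h3.trans h1
  have hinv : EE u⁻¹ =ᵐ[μ] EE 1 := by
    have h3 := (hI u⁻¹ hui).quasiMeasurePreserving.preimage_ae_eq h
    rw [EE_rot (ne_zero_of_norm hui), EE_rot (ne_zero_of_norm hui), mul_one,
      inv_mul_cancel₀ hu0] at h3
    exact h3.symm
  induction n using Int.induction_on with
  | zero => rw [zpow_zero]; exact ae_eq_refl _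
  | succ n ih => rw [zpow_add_one₀ hu0, mul_comm]; exact step hu h ih
  | pred n ih => rw [zpow_sub_one₀ hu0, mul_comm]; exact step hui hinv ih

/-- one rotation with a trace of denominator divisible by `p` removes the prime `p` -/
theorem kill_prime [IsFiniteMeasure μ] (hI : RInv μ) {p : ℕ} (hp : p.Prime) {τ : ℚ}
    (hτ : p ∣ τ.den) {u : K} (hu : ‖(u : ℂ)‖ = 1) (hut : u + u⁻¹ = (τ : K))
    (h : EE u =ᵐ[μ] EE 1) : ∀ᵐ χ ∂μ, χ ∈ EE (1 : K) → χ ∈ BB p (1 : K) 0 := by
  classical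
  have hu0 := ne_zero_of_norm hu
  have hall : ∀ᵐ χ ∂μ, ∀ n : ℤ, (χ ∈ EE (u ^ n) ↔ χ ∈ EE (1 : K)) := by
    rw [ae_all_iff]
    intro n
    filter_upwards [EE_zpow hI hu h n] with χ hχ
    exact Iff.of_eq hχ
  -- the sets `N k n`
  let N : ℕ → ℤ → Set (K → Circle) := fun k n => EE (u ^ n) \ BB p (u ^ n) k
  have hN : ∀ k n, μ (N k n) = μ (N k 0) := by
    intro k n
    have h1 : rot (u ^ n) ⁻¹' (N k 0) = N k n := by
      simp only [N, preimage_sdiff, zpow_zero]
      rw [EE_rot (zpow_ne_zero n hu0), BB_rot (zpow_ne_zero n hu0), mul_one]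
    rw [← h1]
    exact (hI _ (norm_zpow_unit hu n)).measure_preimage
      ((measurableSet_EE _).diff (measurableSet_BB _ _ _)).nullMeasurableSet
  have hlim : Tendsto (fun k => μ (N k 0)) atTop (𝓝 0) := by
    have h1 : Antitone fun k => N k 0 := fun k l hkl => sdiff_subset_sdiff_right (BB_mono p _ hkl)
    have h2 := tendsto_measure_iInter_atTop (μ := μ) (s := fun k => N k 0)
      (fun k => ((measurableSet_EE _).diff (measurableSet_BB _ _ _)).nullMeasurableSet) h1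
      ⟨0, measure_ne_top _ _⟩
    have h3 : ⋂ k, N k 0 = ∅ := by
      rw [eq_empty_iff_forall_notMem]
      intro χ hχ
      rw [mem_iInter] at hχ
      obtain ⟨a, ha⟩ := exists_BB hp (hχ 0).1
      exact (hχ a).2 ha
    rwa [h3, measure_empty] at h2
  have hnull : ∀ s : ℕ → ℤ, μ (⋂ k, N k (s k)) = 0 := by
    intro s
    refine le_antisymm (ge_of_tendsto' hlim fun k => ?_) bot_le
    rw [← hN k (s k)]
    exact measure_mono (iInter_subset _ k)
  have h1 := measure_eq_zero_iff_ae_notMem.1 (hnull fun k => k)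
  have h2 := measure_eq_zero_iff_ae_notMem.1 (hnull fun k => -k)
  filter_upwards [hall, h1, h2] with χ hχ a1 a2 hE
  by_contra hB
  have hex : ∀ n : ℤ, ∃ a, χ ∈ BB p (u ^ n) a := fun n => exists_BB hp ((hχ n).2 hE)
  let a : ℤ → ℕ := fun n => Nat.find (hex n)
  have hlt : ∀ (n : ℤ) (k : ℕ), k < a n → χ ∈ N k n := fun n k hk =>
    ⟨(hχ n).2 hE, Nat.find_min (hex n) hk⟩
  have hle : ∀ (n : ℤ) (k : ℕ), a n ≤ k → χ ∈ BB p (u ^ n) k := fun n k hk =>
    BB_mono p _ hk (Nat.find_spec (hex n))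
  have hstep : ∀ n, 1 ≤ a n → a n < a (n + 1) ∨ a n < a (n - 1) := by
    intro n hn
    by_contra hcon
    push Not at hcon
    obtain ⟨b, hb⟩ : ∃ b, a n = b + 1 := ⟨a n - 1, by omega⟩
    have h3 : u ^ (n + 1) + u ^ (n - 1) = (τ : K) * u ^ n := by
      rw [zpow_add_one₀ hu0, zpow_sub_one₀ hu0, ← hut]; ring
    exact (hlt n b (by omega)).2 (BB_step hp hτ h3 b
      ⟨hle _ _ (by omega), hle _ _ (by omega)⟩)
  have h0 : 1 ≤ a 0 := by
    by_contra hcon
    have := hle 0 0 (by omega)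
    rw [zpow_zero] at this
    exact hB this
  rcases escape a hstep h0 with h3 | h3
  · exact a1 (mem_iInter.2 fun k => hlt _ _ (h3 k))
  · exact a2 (mem_iInter.2 fun k => hlt _ _ (h3 k))

omit [Good K] in
/-- all primes removed -/
theorem CC_one {χ : K → Circle} (hE : χ ∈ EE (1 : K))
    (h : ∀ p : ℕ, p.Prime → χ ∈ BB p (1 : K) 0) : CC 1 χ := by
  classical
  obtain ⟨hχ, hex⟩ := mem_EE.1 hE
  have ho := Nat.find_spec hex
  set o := Nat.find hex with hoo
  by_cases h1 : o = 1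
  · have := ho.2
    rw [h1] at this
    simpa using this
  exfalso
  obtain ⟨p, hp, hpo⟩ := Nat.exists_prime_and_dvd h1
  obtain ⟨-, o', ho', h2⟩ := h p hp
  have h3 : CC (1 * ((Nat.gcd o o' : ℕ) : K)) χ := by
    have h4 := (ho.2.int (Nat.gcdA o o')).add hχ (h2.int (Nat.gcdB o o'))
    convert h4 using 1
    have h5 := congrArg (fun q : ℤ => (q : K)) (Nat.gcd_eq_gcd_ab o o')
    simp only [Int.cast_natCast, Int.cast_add, Int.cast_mul] at h5
    rw [h5]; ring
  have h4 : 0 < Nat.gcd o o' := Nat.gcd_pos_of_pos_left _ ho.1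
  have h5 : o ≤ Nat.gcd o o' := Nat.find_min' hex ⟨h4, h3⟩
  have h6 : Nat.gcd o o' = o := le_antisymm (Nat.gcd_le_left _ ho.1) h5
  exact ho' (hpo.trans (h6 ▸ Nat.gcd_dvd_right o o'))

end Vale.Agent.N032
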