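import Vale.Agent.N032.Decay
import Vale.Agent.N032.Disc

/-!
P032 (new): the chromatic number of the plane over a subfield `F` of `ℝ`.
-/

open MeasureTheory Set Filter Topology

namespace Vale.Agent.N032

open Vale.Agent.P032

/-- compactness: a graph all of whose finite parts are `k`-colourable is `k`-colourable -/
theorem compact {V : Type} (k : ℕ) (A : V → V → Prop) (hs : ∀ x y, A x y → A y x)
    (hi : ∀ x, ¬ A x x)
    (h : ∀ S : Finset V, ∃ c : V → Fin k, ∀ x ∈ S, ∀ y ∈ S, A x y → c x ≠ c y) :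
    ∃ c : V → Fin k, ∀ x y, A x y → c x ≠ c y := by
  classical
  let G : SimpleGraph V := { Adj := A, symm := ⟨hs⟩, loopless := ⟨hi⟩ }
  have hhom : ∀ G' : G.Subgraph, G'.verts.Finite →
      Nonempty (G'.coe →g (⊤ : SimpleGraph (Fin k))) := by
    intro G' hG'
    obtain ⟨c, hc⟩ := h hG'.toFinset
    refine ⟨⟨fun v => c v, ?_⟩⟩
    intro a b hab
    exact hc a (by simp) b (by simp) (G'.adj_sub hab)
  obtain ⟨f⟩ : Nonempty (G →g (⊤ : SimpleGraph (Fin k))) :=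
    SimpleGraph.nonempty_hom_of_forall_finite_subgraph_hom fun G' h => (hhom G' h).some
  exact ⟨f, fun x y hxy => f.map_adj (show G.Adj x y from hxy)⟩

/-- a measurable a.e. proper colouring gives a proper colouring -/
theorem proper_of_ae {k : ℕ} (c : ℂ → Fin k) (hm : Measurable c) (hp : M.Proper c) :
    ∃ c' : ℂ → Fin k, ∀ x y, dist x y = 1 → c' x ≠ c' y := by
  obtain ⟨U, hU, hunit, -, hdense⟩ := M.denseOpen k c hm hp
  refine compact k (fun x y : ℂ => dist x y = 1) (fun x y h => by rw [dist_comm]; exact h)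
    (fun x h => by simp at h) fun S => ?_
  have hopen : ∀ v : ℂ, IsOpen {t | v + t ∈ ⋃ i, U i} := fun v =>
    (isOpen_iUnion hU).preimage (continuous_const.add continuous_id)
  have hd : ∀ v : ℂ, Dense {t | v + t ∈ ⋃ i, U i} := fun v =>
    hdense.preimage (Homeomorph.addLeft v).isOpenMap
  have hall : Dense (⋂ v ∈ (S : Set ℂ), {t | v + t ∈ ⋃ i, U i}) :=
    dense_biInter_of_isOpen (fun v _ => hopen v) S.countable_toSet (fun v _ => hd v)
  obtain ⟨t, ht⟩ := hall.nonempty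
  have ht' : ∀ v : ℂ, ∃ i, v ∈ S → v + t ∈ U i := by
    intro v
    by_cases hv : v ∈ S
    · obtain ⟨i, hi⟩ := Set.mem_iUnion.1 (Set.mem_iInter₂.1 ht v hv)
      exact ⟨i, fun _ => hi⟩
    · exact ⟨c 0, fun h => absurd h hv⟩
  choose f hf using ht'
  refine ⟨f, fun x hx y hy h1 h => ?_⟩
  apply hunit (f x) _ (hf x hx) _ (h ▸ hf y hy)
  rw [dist_add_right]
  exact h1

/-- the transfer principle over `K` -/
theorem transferK {K : IntermediateField ℚ ℂ} [Good K] (hK : Hyp K) {k : ℕ} (c : ℂ → Fin k)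
    (hc : ∀ x y : K, dist (x : ℂ) (y : ℂ) = 1 → c x ≠ c y) :
    ∃ c' : ℂ → Fin k, ∀ x y, dist x y = 1 → c' x ≠ c' y := by
  obtain ⟨d⟩ := corr k c hc
  have hdec : ∀ i, Decay (d.f i) := fun i =>
    decay hK (d.f i) (d.posDef i) (d.even i) (fun u x hu => d.radial i u x hu) (d.unit i)
  obtain ⟨cn, hm, has⟩ := disc k c d hdec
  obtain ⟨c', h1, h2⟩ := T.lim k cn hm has
  exact proper_of_ae c' h1 h2

/-- complex numbers with both coordinates in `F` -/
def KF (F : Subfield ℝ) : IntermediateField ℚ ℂ where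
  carrier := {z | z.re ∈ F ∧ z.im ∈ F}
  mul_mem' := by
    rintro a b ⟨h1, h2⟩ ⟨h3, h4⟩
    exact ⟨by rw [Complex.mul_re]; exact sub_mem (mul_mem h1 h3) (mul_mem h2 h4),
      by rw [Complex.mul_im]; exact add_mem (mul_mem h1 h4) (mul_mem h2 h3)⟩
  add_mem' := by
    rintro a b ⟨h1, h2⟩ ⟨h3, h4⟩
    exact ⟨add_mem h1 h3, add_mem h2 h4⟩
  algebraMap_mem' := fun q => by
    constructor <;> simp
  inv_mem' := by
    rintro a ⟨h1, h2⟩
    have h3 : Complex.normSq a ∈ F := by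
      rw [Complex.normSq_apply]; exact add_mem (mul_mem h1 h1) (mul_mem h2 h2)
    exact ⟨by rw [Complex.inv_re]; exact div_mem h1 h3,
      by rw [Complex.inv_im]; exact div_mem (neg_mem h2) h3⟩

/-- its algebraic part -/
noncomputable def KA (F : Subfield ℝ) : IntermediateField ℚ ℂ := KF F ⊓ T.KK

instance (F : Subfield ℝ) : Good (KA F) where
  countable := by
    have := T.countable_KK
    exact Function.Injective.countable (f := fun y : KA F => (⟨y, y.2.2⟩ : T.KK))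
      (fun x y h => Subtype.ext (congrArg (fun z : T.KK => (z : ℂ)) h))
  I_mem := ⟨⟨by simp, by simp⟩, T.TT.I_mem_KK⟩

/-- the rotation `(t + i √d) / (t - i √d)` -/
theorem hyp_of_param {F : Subfield ℝ} {p d t : ℕ} (hd : √(d : ℝ) ∈ F) (hd0 : 0 < d)
    (h : ∀ a : ℤ, ∀ b : ℕ, (b : ℤ) * (2 * (t ^ 2 - d)) = a * (t ^ 2 + d) → p ∣ b) :
    ∃ τ : ℚ, p ∣ τ.den ∧ ∃ s : ℝ, (s : ℂ) ∈ KA F ∧ (τ : ℝ) ^ 2 + s ^ 2 = 4 := by
  have hQ : ((t : ℚ) ^ 2 + d) ≠ 0 := by positivity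
  have hR : ((t : ℝ) ^ 2 + d) ≠ 0 := by positivity
  set τ : ℚ := 2 * ((t : ℚ) ^ 2 - d) / (t ^ 2 + d) with hτ
  have hsq : √(d : ℝ) ^ 2 = d := Real.sq_sqrt (by positivity)
  have hs : (τ : ℝ) ^ 2 + (4 * t * √(d : ℝ) / (t ^ 2 + d)) ^ 2 = 4 := by
    rw [hτ]; push_cast
    field_simp
    rw [hsq]; ring
  refine ⟨τ, h τ.num τ.den ?_, 4 * t * √(d : ℝ) / (t ^ 2 + d),
    ⟨⟨?_, by rw [Complex.ofReal_im]; exact zero_mem _⟩, ?_⟩, hs⟩
  · have h1 : τ * τ.den = τ.num := Rat.mul_den_eq_num τ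
    have h2 : τ * (t ^ 2 + d) = 2 * ((t : ℚ) ^ 2 - d) := by rw [hτ, div_mul_cancel₀ _ hQ]
    have h3 : (τ.den : ℚ) * (2 * (t ^ 2 - d)) = τ.num * (t ^ 2 + d) := by
      rw [← h1, ← h2]; ring
    exact_mod_cast h3
  · rw [Complex.ofReal_re]
    exact div_mem (mul_mem (mul_mem (by simp) (by simp)) hd)
      (add_mem (pow_mem (by simp) 2) (by simp))
  · exact T.TT.sqrt_mem_KK (d := 4 - τ ^ 2) (by push_cast; linarith)

theorem hyp_odd {F : Subfield ℝ} {p d : ℕ} (hp : p.Prime) (hp2 : p ≠ 2) (hd : √(d : ℝ) ∈ F)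
    (hpd : (d : ZMod p) ≠ 0) (hsq : IsSquare (-(d : ZMod p))) :
    ∃ τ : ℚ, p ∣ τ.den ∧ ∃ s : ℝ, (s : ℂ) ∈ KA F ∧ (τ : ℝ) ^ 2 + s ^ 2 = 4 := by
  have : Fact p.Prime := ⟨hp⟩
  obtain ⟨r, hr⟩ := hsq
  have hd0 : 0 < d := Nat.pos_of_ne_zero (by rintro rfl; simp at hpd)
  refine hyp_of_param (t := r.val) hd hd0 fun a b hab => ?_
  have h1 := congrArg (fun z : ℤ => (z : ZMod p)) hab
  simp only [Int.cast_mul, Int.cast_natCast, Int.cast_sub, Int.cast_add, Int.cast_pow,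
    Int.cast_ofNat, ZMod.natCast_zmod_val] at h1
  have h2 : (2 : ZMod p) ≠ 0 := by
    intro h
    have h3 : ((2 : ℕ) : ZMod p) = 0 := by exact_mod_cast h
    rw [ZMod.natCast_eq_zero_iff] at h3
    exact hp2 ((Nat.prime_dvd_prime_iff_eq hp Nat.prime_two).1 h3)
  have h4 : (b : ZMod p) * (2 * 2 * d) = 0 := by
    linear_combination -h1 - (2 * (b : ZMod p) - a) * hr
  rw [← ZMod.natCast_eq_zero_iff]
  exact (mul_eq_zero.1 h4).resolve_right (mul_ne_zero (mul_ne_zero h2 h2) hpd)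

theorem hyp_KA {F : Subfield ℝ} (h2 : ∃ d : ℕ, d % 8 = 7 ∧ √(d : ℝ) ∈ F)
    (h3 : ∀ p : ℕ, p.Prime → p % 4 = 3 → ∃ d : ℕ, ¬ IsSquare (d : ZMod p) ∧ √(d : ℝ) ∈ F) :
    Hyp (KA F) := by
  intro p hp
  have : Fact p.Prime := ⟨hp⟩
  by_cases hp2 : p = 2
  · subst hp2
    obtain ⟨d, hd, hF⟩ := h2
    refine hyp_of_param (t := 1) hF (by omega) fun a b hab => ?_
    obtain ⟨m, rfl⟩ : ∃ m, d = 8 * m + 7 := ⟨d / 8, by omega⟩
    push_cast at hab
    have h1 : (b : ℤ) * (4 * m + 3) = 2 * (-(a * (m + 1))) := by linarith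
    have h4 : Even ((b : ℤ) * (4 * m + 3)) := ⟨-(a * (m + 1)), by linarith⟩
    rcases Int.even_mul.1 h4 with h5 | h5
    · exact even_iff_two_dvd.1 (by exact_mod_cast h5)
    · exfalso
      obtain ⟨j, hj⟩ := h5
      omega
  by_cases hp3 : p % 4 = 3
  · obtain ⟨d, hd, hF⟩ := h3 p hp hp3
    have hd0 : (d : ZMod p) ≠ 0 := fun h => hd (h ▸ IsSquare.zero)
    refine hyp_odd hp hp2 hF hd0 ?_
    have hm : ¬ IsSquare (-1 : ZMod p) := by
      rw [ZMod.exists_sq_eq_neg_one_iff]; simpa using hp3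
    have e1 := quadraticChar_neg_one_iff_not_isSquare.2 hm
    have e2 := quadraticChar_neg_one_iff_not_isSquare.2 hd
    rw [← quadraticChar_one_iff_isSquare (neg_ne_zero.2 hd0), neg_eq_neg_one_mul, map_mul, e1, e2]
    norm_num
  · refine hyp_odd (d := 1) hp hp2 (by simp) (by simp) ?_
    simpa using ZMod.exists_sq_eq_neg_one_iff.2 hp3

/-- main theorem: finite parts of `F²` decide the colourability of the plane -/
theorem field_iff (F : Subfield ℝ) (h2 : ∃ d : ℕ, d % 8 = 7 ∧ √(d : ℝ) ∈ F)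
    (h3 : ∀ p : ℕ, p.Prime → p % 4 = 3 → ∃ d : ℕ, ¬ IsSquare (d : ZMod p) ∧ √(d : ℝ) ∈ F)
    (k : ℕ) : (∃ c : EuclideanSpace ℝ (Fin 2) → Fin k, ∀ x y, dist x y = 1 → c x ≠ c y) ↔
      ∀ S : Finset (EuclideanSpace ℝ (Fin 2)), (∀ x ∈ S, ∀ i, x i ∈ F) →
        ∃ c : EuclideanSpace ℝ (Fin 2) → Fin k, ∀ x ∈ S, ∀ y ∈ S, dist x y = 1 → c x ≠ c y := by
  classical
  let φ : ℂ ≃ₗᵢ[ℝ] EuclideanSpace ℝ (Fin 2) := Complex.orthonormalBasisOneI.repr
  constructor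
  · rintro ⟨c, hc⟩ S -
    exact ⟨c, fun x _ y _ h => hc x y h⟩
  · intro h
    obtain ⟨c, hc⟩ := compact (V := KA F) k (fun x y => dist (x : ℂ) (y : ℂ) = 1)
      (fun x y h => by rw [dist_comm]; exact h) (fun x h => by simp at h) fun S => by
        obtain ⟨c, hc⟩ := h (S.image fun z : KA F => φ z) (by
          intro x hx i
          obtain ⟨z, -, rfl⟩ := Finset.mem_image.1 hx
          fin_cases i
          · simpa [φ] using z.2.1.1
          · simpa [φ] using z.2.1.2)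
        exact ⟨fun z => c (φ z), fun x hx y hy hxy => hc _ (Finset.mem_image_of_mem _ hx) _
          (Finset.mem_image_of_mem _ hy) (by rw [φ.dist_map]; exact hxy)⟩
    obtain ⟨c', hc'⟩ := transferK (hyp_KA h2 h3)
      (fun z => if hz : z ∈ KA F then c ⟨z, hz⟩ else c 0) (fun x y hxy => by
        simp only [dif_pos x.2, dif_pos y.2]
        exact hc x y hxy)
    exact ⟨fun x => c' (φ.symm x), fun x y hxy => hc' _ _ (by rw [φ.symm.dist_map]; exact hxy)⟩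

end Vale.Agent.N032
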